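import Mathlib.Analysis.SpecialFunctions.Exponential
import Mathlib.Analysis.Calculus.FDeriv.Mul
import Mathlib.Analysis.Calculus.InverseFunctionTheorem.FDeriv
import Mathlib.Analysis.Normed.Module.FiniteDimension

/-!
P092, project RE, block [RE-LOG] (helper736): the closed subgroup theorem in a finite dimensional
normed algebra.
-/

set_option linter.all false

open Filter Topology

namespace Vale.Agent.P092.H736.ExpLoc

variable {𝔸 : Type*} [NormedRing 𝔸] [NormedAlgebra ℝ 𝔸] [CompleteSpace 𝔸]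

theorem exp_neg_mul (A : 𝔸) : NormedSpace.exp (-A) * NormedSpace.exp A = 1 := by
  letI : NormedAlgebra ℚ 𝔸 := NormedAlgebra.restrictScalars ℚ ℝ 𝔸
  rw [← NormedSpace.exp_add_of_commute (Commute.neg_left (Commute.refl A)), neg_add_cancel,
    NormedSpace.exp_zero]

theorem exp_mul_neg (A : 𝔸) : NormedSpace.exp A * NormedSpace.exp (-A) = 1 := by
  letI : NormedAlgebra ℚ 𝔸 := NormedAlgebra.restrictScalars ℚ ℝ 𝔸
  rw [← NormedSpace.exp_add_of_commute (Commute.neg_right (Commute.refl A)), add_neg_cancel,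
    NormedSpace.exp_zero]

/-- `Φ(Z) = exp(PZ) exp(Z - PZ)` is locally surjective at `0` -/
theorem map_nhds (P : 𝔸 →L[ℝ] 𝔸) :
    map (fun Z => NormedSpace.exp (P Z) * NormedSpace.exp (Z - P Z)) (𝓝 (0 : 𝔸)) =
      𝓝 (1 : 𝔸) := by
  have e0 : HasStrictFDerivAt (NormedSpace.exp : 𝔸 → 𝔸) (1 : 𝔸 →L[ℝ] 𝔸) 0 :=
    hasStrictFDerivAt_exp_zero
  have h1 : HasStrictFDerivAt (fun Z : 𝔸 => NormedSpace.exp (P Z)) P 0 := by
    have h := HasStrictFDerivAt.comp (𝕜 := ℝ) (0 : 𝔸) (g := NormedSpace.exp)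
      (g' := (1 : 𝔸 →L[ℝ] 𝔸)) (f := fun Z => P Z) (f' := P) (by simpa using e0)
      P.hasStrictFDerivAt
    exact h
  have h2 : HasStrictFDerivAt (fun Z : 𝔸 => NormedSpace.exp (Z - P Z))
      (ContinuousLinearMap.id ℝ 𝔸 - P) 0 := by
    have h := HasStrictFDerivAt.comp (𝕜 := ℝ) (0 : 𝔸) (g := NormedSpace.exp)
      (g' := (1 : 𝔸 →L[ℝ] 𝔸)) (f := fun Z => Z - P Z)
      (f' := ContinuousLinearMap.id ℝ 𝔸 - P) (by simpa using e0)
      ((ContinuousLinearMap.id ℝ 𝔸).hasStrictFDerivAt.sub P.hasStrictFDerivAt)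
    exact h
  have h3 := HasStrictFDerivAt.fun_mul' h1 h2
  have h4 : HasStrictFDerivAt
      (fun Z : 𝔸 => NormedSpace.exp (P Z) * NormedSpace.exp (Z - P Z))
      ((ContinuousLinearEquiv.refl ℝ 𝔸 : 𝔸 ≃L[ℝ] 𝔸) : 𝔸 →L[ℝ] 𝔸) 0 := by
    refine h3.congr_fderiv ?_
    ext Z
    simp
  have h5 := h4.map_nhds_eq_of_equiv
  simpa using h5

theorem isLittle : Asymptotics.IsLittleO (𝓝 (0 : 𝔸))
    (fun X => NormedSpace.exp X - 1 - X) (fun X => X) := by
  have e0 : HasStrictFDerivAt (NormedSpace.exp : 𝔸 → 𝔸) (1 : 𝔸 →L[ℝ] 𝔸) 0 :=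
    hasStrictFDerivAt_exp_zero
  have h := e0.hasFDerivAt.isLittleO
  simpa using h

/-- the limit direction of small logarithms is in the Lie algebra -/
theorem dir_of_seq {H : Set 𝔸} (hc : IsClosed H) (hone : (1 : 𝔸) ∈ H)
    (hmul : ∀ a ∈ H, ∀ b ∈ H, a * b ∈ H)
    (hneg : ∀ A : 𝔸, NormedSpace.exp A ∈ H → NormedSpace.exp (-A) ∈ H)
    {Y : ℕ → 𝔸} {r : ℕ → ℝ} {Z : 𝔸} (hr : ∀ k, 0 < r k) (hr0 : Tendsto r atTop (𝓝 0))
    (hY : Tendsto (fun k => (r k)⁻¹ • Y k) atTop (𝓝 Z))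
    (hmem : ∀ k, NormedSpace.exp (Y k) ∈ H) : ∀ t : ℝ, NormedSpace.exp (t • Z) ∈ H := by
  letI : NormedAlgebra ℚ 𝔸 := NormedAlgebra.restrictScalars ℚ ℝ 𝔸
  have hpow : ∀ (m : ℕ) (a : 𝔸), a ∈ H → a ^ m ∈ H := by
    intro m a ha
    induction m with
    | zero => simpa using hone
    | succ m ih => rw [pow_succ]; exact hmul _ ih _ ha
  have key : ∀ t : ℝ, 0 ≤ t → NormedSpace.exp (t • Z) ∈ H := by
    intro t ht
    have h1 : Tendsto (fun k => (⌊t / r k⌋₊ : ℝ) * r k) atTop (𝓝 t) := by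
      have h2 : ∀ k, |(⌊t / r k⌋₊ : ℝ) * r k - t| ≤ r k := by
        intro k
        have h3 : 0 ≤ t / r k := div_nonneg ht (hr k).le
        have h4 := Nat.floor_le h3
        have h5 := (Nat.lt_floor_add_one (t / r k)).le
        have h6 : t / r k * r k = t := div_mul_cancel₀ _ (hr k).ne'
        rw [abs_le]
        constructor
        · have := mul_le_mul_of_nonneg_right h5 (hr k).le
          rw [h6, add_mul, one_mul] at this
          linarith
        · have := mul_le_mul_of_nonneg_right h4 (hr k).le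
          rw [h6] at this
          linarith [hr k]
      rw [tendsto_iff_dist_tendsto_zero]
      refine squeeze_zero (fun _ => dist_nonneg) (fun k => ?_) hr0
      rw [Real.dist_eq]; exact h2 k
    have h2 : Tendsto (fun k => (⌊t / r k⌋₊ : ℝ) • Y k) atTop (𝓝 (t • Z)) := by
      have h3 := h1.smul hY
      refine h3.congr fun k => ?_
      rw [smul_smul, mul_assoc, mul_inv_cancel₀ (hr k).ne', mul_one]
    have h3 : Tendsto (fun k => NormedSpace.exp ((⌊t / r k⌋₊ : ℝ) • Y k)) atTop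
        (𝓝 (NormedSpace.exp (t • Z))) :=
      (NormedSpace.exp_continuous (𝔸 := 𝔸)).continuousAt.tendsto.comp h2
    refine hc.mem_of_tendsto h3 (Eventually.of_forall fun k => ?_)
    rw [Nat.cast_smul_eq_nsmul, NormedSpace.exp_nsmul]
    exact hpow _ _ (hmem k)
  intro t
  rcases le_total 0 t with ht | ht
  · exact key t ht
  · have h := hneg _ (key (-t) (neg_nonneg.2 ht))
    simpa using h

/-- **Closed subgroup theorem.** `H` closed, multiplicative; `S` = its Lie algebra. Elements of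
`H` near `1` are exponentials of elements of `S` near `0`. -/
theorem log_nhds [FiniteDimensional ℝ 𝔸] {H : Set 𝔸} (hc : IsClosed H) (hone : (1 : 𝔸) ∈ H)
    (hmul : ∀ a ∈ H, ∀ b ∈ H, a * b ∈ H)
    (hneg : ∀ A : 𝔸, NormedSpace.exp A ∈ H → NormedSpace.exp (-A) ∈ H)
    (S : Submodule ℝ 𝔸) (hS : ∀ X, X ∈ S ↔ ∀ t : ℝ, NormedSpace.exp (t • X) ∈ H)
    {U : Set 𝔸} (hU : U ∈ 𝓝 (0 : 𝔸)) :
    ∃ V ∈ 𝓝 (1 : 𝔸), ∀ a ∈ H, a ∈ V → ∃ X ∈ U, X ∈ S ∧ a = NormedSpace.exp X := by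
  classical
  obtain ⟨T, hT⟩ := S.exists_isCompl
  -- the projection onto `S` along `T`
  set P : 𝔸 →L[ℝ] 𝔸 := LinearMap.toContinuousLinearMap (S.projection T hT) with hP
  have hPS : ∀ Z, P Z ∈ S := fun Z => Submodule.projection_apply_mem hT Z
  have hPT : ∀ Z, Z - P Z ∈ T := fun Z => by
    have h1 : Z - P Z = T.projection S hT.symm Z := by
      have h2 := Submodule.projection_add_projection_eq_self hT Z
      have h3 : P Z = S.projection T hT Z := rfl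
      rw [h3]
      nth_rewrite 1 [← h2]
      abel
    rw [h1]
    exact Submodule.projection_apply_mem hT.symm Z
  by_contra hcon
  push Not at hcon
  have hex : ∀ k : ℕ, ∃ Z : 𝔸, Z ∈ U ∧ ‖Z‖ < 1 / ((k : ℝ) + 1) ∧
      NormedSpace.exp (P Z) * NormedSpace.exp (Z - P Z) ∈ H ∧
      ∀ X ∈ U, X ∈ S → NormedSpace.exp (P Z) * NormedSpace.exp (Z - P Z) ≠
        NormedSpace.exp X := by
    intro k
    have hk : (0 : ℝ) < 1 / ((k : ℝ) + 1) := by positivity
    have hB : U ∩ Metric.ball (0 : 𝔸) (1 / ((k : ℝ) + 1)) ∈ 𝓝 (0 : 𝔸) :=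
      inter_mem hU (Metric.ball_mem_nhds _ hk)
    have hV := image_mem_map (m := fun Z => NormedSpace.exp (P Z) * NormedSpace.exp (Z - P Z)) hB
    rw [map_nhds P] at hV
    obtain ⟨a, haH, ⟨Z, hZ, rfl⟩, hno⟩ := hcon _ hV
    refine ⟨Z, hZ.1, by simpa using hZ.2, haH, ?_⟩
    intro X hXU hXS
    exact hno X hXU hXS
  choose Z hZU hZn hZH hZno using hex
  have hY0 : ∀ k, Z k - P (Z k) ≠ 0 := by
    intro k h0
    have h1 : P (Z k) = Z k := (sub_eq_zero.1 h0).symm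
    refine hZno k (Z k) (hZU k) (h1 ▸ hPS (Z k)) ?_
    rw [h1, sub_self, NormedSpace.exp_zero, mul_one]
  have hYH : ∀ k, NormedSpace.exp (Z k - P (Z k)) ∈ H := by
    intro k
    have h1 : NormedSpace.exp (-(P (Z k))) ∈ H := by
      refine hneg _ ?_
      have := (hS (P (Z k))).1 (hPS _) 1
      simpa using this
    have h2 := hmul _ h1 _ (hZH k)
    rwa [← mul_assoc, exp_neg_mul, one_mul] at h2
  -- extract a limit direction
  have hsph : ∀ k, (‖Z k - P (Z k)‖)⁻¹ • (Z k - P (Z k)) ∈ Metric.sphere (0 : 𝔸) 1 := by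
    intro k
    have h1 : 0 < ‖Z k - P (Z k)‖ := norm_pos_iff.2 (hY0 k)
    rw [mem_sphere_zero_iff_norm, norm_smul, norm_inv, norm_norm, inv_mul_cancel₀ h1.ne']
  haveI : ProperSpace 𝔸 := FiniteDimensional.proper ℝ 𝔸
  obtain ⟨W, hW, φ, hφ, hlim⟩ := (isCompact_sphere (0 : 𝔸) 1).tendsto_subseq hsph
  have hZ0 : Tendsto Z atTop (𝓝 0) := by
    rw [tendsto_zero_iff_norm_tendsto_zero]
    exact squeeze_zero (fun _ => norm_nonneg _) (fun k => (hZn k).le)
      tendsto_one_div_add_atTop_nhds_zero_nat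
  have hr0 : Tendsto (fun k => ‖Z k - P (Z k)‖) atTop (𝓝 0) := by
    have h1 : Tendsto (fun k => Z k - P (Z k)) atTop (𝓝 (0 - P 0)) :=
      hZ0.sub ((P.continuous.tendsto 0).comp hZ0)
    rw [map_zero, sub_zero] at h1
    simpa using h1.norm
  have hWS : W ∈ S := by
    rw [hS]
    exact dir_of_seq hc hone hmul hneg (Y := fun k => Z (φ k) - P (Z (φ k)))
      (r := fun k => ‖Z (φ k) - P (Z (φ k))‖) (fun k => norm_pos_iff.2 (hY0 _))
      (hr0.comp hφ.tendsto_atTop) hlim (fun k => hYH _)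
  have hWT : W ∈ T := by
    have hcl : IsClosed (T : Set 𝔸) := T.closed_of_finiteDimensional
    exact hcl.mem_of_tendsto hlim (Eventually.of_forall fun k => T.smul_mem _ (hPT _))
  have hW0 : W = 0 := by
    have := hT.disjoint.le_bot ⟨hWS, hWT⟩
    simpa using this
  rw [hW0] at hW
  simp at hW

/-- `exp` is almost isometric near `0` -/
theorem exp_close {c : ℝ} (hc : 0 < c) :
    ∃ δ > 0, ∀ X Y : 𝔸, ‖X‖ < δ → ‖Y‖ < δ →
      ‖NormedSpace.exp X - NormedSpace.exp Y - (X - Y)‖ ≤ c * ‖X - Y‖ := by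
  have e0 : HasStrictFDerivAt (NormedSpace.exp : 𝔸 → 𝔸) (1 : 𝔸 →L[ℝ] 𝔸) 0 :=
    hasStrictFDerivAt_exp_zero
  have h := (Asymptotics.isLittleO_iff.1 e0.isLittleO) hc
  rw [nhds_prod_eq, Filter.eventually_prod_iff] at h
  obtain ⟨p, hp, q, hq, hpq⟩ := h
  obtain ⟨δ, hδ, hball⟩ := Metric.eventually_nhds_iff.1 (hp.and hq)
  refine ⟨δ, hδ, fun X Y hX hY => ?_⟩
  have hX' := hball (y := X) (by simpa [dist_eq_norm] using hX)
  have hY' := hball (y := Y) (by simpa [dist_eq_norm] using hY)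
  simpa using hpq hX'.1 hY'.2

/-- `exp` is injective near `0` -/
theorem exp_inj : ∃ δ > 0, ∀ X Y : 𝔸, ‖X‖ < δ → ‖Y‖ < δ →
    NormedSpace.exp X = NormedSpace.exp Y → X = Y := by
  obtain ⟨δ, hδ, h⟩ := exp_close (𝔸 := 𝔸) (c := 1 / 2) (by norm_num)
  refine ⟨δ, hδ, fun X Y hX hY he => ?_⟩
  have h1 := h X Y hX hY
  rw [he, sub_self, zero_sub, norm_neg] at h1
  have h2 : ‖X - Y‖ = 0 := by nlinarith [norm_nonneg (X - Y)]
  exact sub_eq_zero.1 (norm_eq_zero.1 h2)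

end Vale.Agent.P092.H736.ExpLoc
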