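import Vale.Agent.P092.H736.NdP
import Vale.Agent.P092.H213.Rp.Top

/-!
P092, project ND (helper736), row ND-P: a closed nondiscrete subgroup of a linear group of
automorphisms of a simple Lie algebra over an ultrametric local field of characteristic zero in
which `ℤ` is dense in the unit ball contains a curve with nonzero derivative.
-/

set_option linter.all false

open Filter Topology Module

namespace Vale.Agent.P092.H736.Rp

open Vale.Agent.P092.H213.Rp

section der

variable {k : Type} [NontriviallyNormedField k] [CompleteSpace k] {L : Type} [LieRing L]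
  [LieAlgebra k L] {n : ℕ} {G : Type} [Group G]

theorem strict_of {b : Basis (Fin n) k L} {ρ : G →* Module.End k L} {γ : k → G}
    {X : Matrix (Fin n) (Fin n) k}
    (h : ∀ i j, HasStrictDerivAt (fun t => LinearMap.toMatrix b b (ρ (γ t)) i j) (X i j) 0) :
    HasStrictDerivAt (fun t => clm b (ρ (γ t))) (m2c X) 0 := by
  let Φ : (Fin n → Fin n → k) →L[k] ((Fin n → k) →L[k] (Fin n → k)) :=
    LinearMap.toContinuousLinearMap
      ((m2c (k := k) (n := n)).comp (Matrix.ofLinearEquiv k).toLinearMap)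
  have h1 : HasStrictDerivAt (fun t => fun i j => LinearMap.toMatrix b b (ρ (γ t)) i j)
      (fun i j => X i j) 0 :=
    hasStrictDerivAt_pi.2 fun i => hasStrictDerivAt_pi.2 fun j => h i j
  have h2 := Φ.hasStrictFDerivAt.comp_hasStrictDerivAt (0 : k) h1
  exact h2

/-- the derivative at `1` of a curve of automorphisms is a derivation -/
theorem der_of [LieAlgebra.IsKilling k L] [Module.Finite k L] {b : Basis (Fin n) k L}
    {ρ : G →* Module.End k L}
    (lie : ∀ g (x y : L), ρ g ⁅x, y⁆ = ⁅ρ g x, ρ g y⁆) {γ : k → G} (h0 : γ 0 = 1)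
    {X : Matrix (Fin n) (Fin n) k}
    (h : ∀ i j, HasStrictDerivAt (fun t => LinearMap.toMatrix b b (ρ (γ t)) i j) (X i j) 0) :
    ∃ z : L, X = LinearMap.toMatrix b b (LieAlgebra.ad k L z) := by
  have h1 : HasDerivAt (fun t => clm b (ρ (γ t))) (m2c X) 0 := (strict_of h).hasDerivAt
  have hc0 : clm b (ρ (γ 0)) = 1 := by rw [h0, map_one, map_one]
  have hap : ∀ w, HasDerivAt (fun t => clm b (ρ (γ t)) w) (m2c X w) 0 := fun w => by
    have h2 := h1.clm_apply (hasDerivAt_const (0 : k) w)
    simpa using h2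
  have hX : m2c X ∈ DerB (brk b) := by
    show ∀ u v, m2c X (brk b u v) = brk b (m2c X u) v + brk b u (m2c X v)
    intro u v
    have h3 := hap (brk b u v)
    have h4 : HasDerivAt (fun t => brk b (clm b (ρ (γ t)) u) (clm b (ρ (γ t)) v))
        (brk b (clm b (ρ (γ 0)) u) (m2c X v) + brk b (m2c X u) (clm b (ρ (γ 0)) v)) 0 :=
      (brk b).hasDerivAt_of_bilinear (fun _ => hap u) (fun _ => hap v)
    have h5 : (fun t => clm b (ρ (γ t)) (brk b u v)) =
        fun t => brk b (clm b (ρ (γ t)) u) (clm b (ρ (γ t)) v) := by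
      funext t
      exact autB_clm b (lie (γ t)) u v
    rw [h5] at h3
    have h6 := h3.unique h4
    rw [hc0] at h6
    rw [h6, add_comm]
    rfl
  obtain ⟨z, hz⟩ := exists_ad b hX
  refine ⟨z, ?_⟩
  have h7 : m2c X = m2c (LinearMap.toMatrix b b (LieAlgebra.ad k L z)) := by
    rw [hz]; rfl
  have hinj : Function.Injective (m2c (k := k) (n := n)) := by
    intro A B hAB
    have h8 : Matrix.toLin' A = Matrix.toLin' B :=
      (Module.End.toContinuousLinearMap (𝕜 := k) (Fin n → k)).injective hAB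
    exact Matrix.toLin'.injective h8
  exact hinj h7

end der

/-- **[ND-P]** -/
theorem exists_crv_padic {k : Type} [NontriviallyNormedField k] [ProperSpace k]
    [IsUltrametricDist k] [CharZero k]
    (hZ : ∀ t : k, ‖t‖ ≤ 1 → t ∈ closure (Set.range ((↑) : ℤ → k)))
    {L : Type} [LieRing L] [LieAlgebra k L] {n : ℕ} {G : Type} [Group G] [TopologicalSpace G]
    (b : Basis (Fin n) k L) (ρ : G →* Module.End k L)
    (he : IsClosedEmbedding fun g => LinearMap.toMatrix b b (ρ g))
    (hs : LieAlgebra.IsSimple k L) (lie : ∀ g (x y : L), ρ g ⁅x, y⁆ = ⁅ρ g x, ρ g y⁆)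
    (H : Subgroup G) (hH : IsClosed (H : Set G)) (hd : ¬ DiscreteTopology H) :
    ∃ x : L, x ≠ 0 ∧ Crv b ρ H x := by
  haveI := topGroup he.isEmbedding
  haveI : Module.Finite k L := Module.Finite.of_basis b
  haveI : LieAlgebra.IsKilling k L := inferInstance
  let φ : G →* Mt n k := (LinearMap.toMatrixAlgEquiv b).toMonoidHom.comp ρ
  have hφ : IsClosedEmbedding φ := he
  obtain ⟨X, γ, hX0, hγH, hγ0, -, hder⟩ := exists_one_param hZ hφ H hH hd
  have hder' : ∀ i j, HasStrictDerivAt (fun t => LinearMap.toMatrix b b (ρ (γ t)) i j)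
      (X i j) 0 := hder
  obtain ⟨z, hz⟩ := der_of lie hγ0 hder'
  refine ⟨z, ?_, γ, hγH, hγ0, fun i j => ?_⟩
  · rintro rfl
    apply hX0
    rw [hz, map_zero, map_zero]
  · rw [← hz]; exact hder' i j

end Vale.Agent.P092.H736.Rp
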