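import Vale.Agent.P092.H793.Re.Defs
import Vale.Agent.P092.H736.ExpLoc

/-!
P092, project RE, block [RE-LOG] (helper736): the closed subgroup theorem. Near the identity every
element of a closed linear group is the exponential of a small element of its Lie algebra.
-/

set_option linter.all false

open Matrix Filter Topology

namespace Vale.Agent.P092.H736.Re

open Vale.Agent.P092.H793.Re

attribute [local instance] Matrix.linftyOpNormedRing Matrix.linftyOpNormedAlgebra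

variable {n : ℕ} {G : Type} [Group G] [TopologicalSpace G]

theorem emb_val : Topology.IsEmbedding (fun g : SLn n => g.1) := Topology.IsEmbedding.subtypeVal

theorem isClosed_sl : IsClosed {A : Mat n | A.det = 1} :=
  isClosed_eq (Continuous.matrix_det continuous_id) continuous_const

/-- the image of a closed embedding is closed in the space of all matrices -/
theorem isClosed_img {ρ : G →* SLn n} (hρ : IsClosedEmbedding ρ) :
    IsClosed {A : Mat n | ∃ g, (ρ g).1 = A} := by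
  have h1 : Topology.IsClosedEmbedding (fun g : SLn n => g.1) :=
    isClosed_sl.isClosedEmbedding_subtypeVal
  have h2 := h1.isClosedMap _ hρ.isClosed_range
  convert h2 using 1
  ext A
  simp

theorem inv_val (ρ : G →* SLn n) (g : G) : (ρ g⁻¹).1 * (ρ g).1 = 1 := by
  have h : ρ g⁻¹ * ρ g = 1 := by rw [← map_mul, inv_mul_cancel, map_one]
  have h2 : (ρ g⁻¹ * ρ g).1 = (1 : SLn n).1 := by rw [h]
  exact h2

/-- if `exp A` is in the image, so is `exp (-A)` -/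
theorem mem_neg {ρ : G →* SLn n} {A : Mat n} (h : ∃ g, (ρ g).1 = NormedSpace.exp A) :
    ∃ g, (ρ g).1 = NormedSpace.exp (-A) := by
  obtain ⟨g, hg⟩ := h
  refine ⟨g⁻¹, ?_⟩
  have h1 := inv_val ρ g
  have h2 : NormedSpace.exp (-A) * NormedSpace.exp A = (1 : Mat n) := ExpLoc.exp_neg_mul A
  rw [← hg] at h2
  have h3 : (ρ g).1 * (ρ g⁻¹).1 = 1 := mul_eq_one_comm.1 h1
  calc (ρ g⁻¹).1 = 1 * (ρ g⁻¹).1 := (one_mul _).symm
    _ = (NormedSpace.exp (-A) * (ρ g).1) * (ρ g⁻¹).1 := by rw [h2]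
    _ = NormedSpace.exp (-A) * ((ρ g).1 * (ρ g⁻¹).1) := mul_assoc _ _ _
    _ = NormedSpace.exp (-A) := by rw [h3, mul_one]

/-- the limit direction of small logarithms is in the Lie algebra -/
theorem lie_of_seq {ρ : G →* SLn n} (hρ : IsClosedEmbedding ρ) {Y : ℕ → Mat n} {r : ℕ → ℝ}
    {Z : Mat n} (hr : ∀ k, 0 < r k) (hr0 : Tendsto r atTop (𝓝 0))
    (hY : Tendsto (fun k => (r k)⁻¹ • Y k) atTop (𝓝 Z))
    (hmem : ∀ k, ∃ g, (ρ g).1 = NormedSpace.exp (Y k)) : Lie ρ Z := by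
  haveI : CompleteSpace (Mat n) := FiniteDimensional.complete ℝ _
  refine ExpLoc.dir_of_seq (isClosed_img hρ) ⟨1, by simp⟩ ?_ (fun A hA => mem_neg hA) hr hr0 hY
    hmem
  rintro a ⟨g, rfl⟩ b ⟨g', rfl⟩
  exact ⟨g * g', by simp⟩

/-- **[RE-LOG]**, topological form: elements near `1` are exponentials of elements of the Lie
algebra near `0`. -/
theorem log_nhds {ρ : G →* SLn n} (hρ : IsClosedEmbedding ρ) (S : Submodule ℝ (Mat n))
    (hS : ∀ X, X ∈ S ↔ Lie ρ X) {U : Set (Mat n)} (hU : U ∈ 𝓝 (0 : Mat n)) :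
    ∃ V ∈ 𝓝 (1 : Mat n), ∀ g, (ρ g).1 ∈ V →
      ∃ X ∈ U, Lie ρ X ∧ (ρ g).1 = NormedSpace.exp X := by
  haveI : CompleteSpace (Mat n) := FiniteDimensional.complete ℝ _
  obtain ⟨V, hV, h⟩ := ExpLoc.log_nhds (𝔸 := Mat n) (H := {A : Mat n | ∃ g, (ρ g).1 = A})
    (isClosed_img hρ) ⟨1, by simp⟩ (by
      rintro a ⟨g, rfl⟩ b ⟨g', rfl⟩
      exact ⟨g * g', by simp⟩) (fun A hA => mem_neg hA) S hS hU
  refine ⟨V, hV, fun g hg => ?_⟩
  obtain ⟨X, hXU, hXS, hX⟩ := h _ ⟨g, rfl⟩ hg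
  exact ⟨X, hXU, (hS X).1 hXS, hX⟩

theorem entry_le_norm (A : Mat n) (a b : Fin n) : |A a b| ≤ ‖A‖ := by
  have h1 : ‖A a b‖₊ ≤ ∑ j, ‖A a j‖₊ :=
    Finset.single_le_sum (f := fun j => ‖A a j‖₊) (fun _ _ => by simp) (Finset.mem_univ b)
  have h2 : (∑ j, ‖A a j‖₊) ≤ Finset.univ.sup fun i => ∑ j, ‖A i j‖₊ :=
    Finset.le_sup (f := fun i => ∑ j, ‖A i j‖₊) (Finset.mem_univ a)
  have h3 : ‖A a b‖₊ ≤ ‖A‖₊ := by
    rw [Matrix.linfty_opNNNorm_def]; exact h1.trans h2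
  have h4 := NNReal.coe_le_coe.2 h3
  simpa using h4

theorem norm_le_entry {A : Mat n} {M : ℝ} (hM : 0 ≤ M) (h : ∀ a b, |A a b| ≤ M) :
    ‖A‖ ≤ n * M := by
  have h1 : ‖A‖₊ ≤ (n : NNReal) * M.toNNReal := by
    rw [Matrix.linfty_opNNNorm_def]
    refine Finset.sup_le fun i _ => ?_
    have h3 : ∀ j, ‖A i j‖₊ ≤ M.toNNReal := fun j => by
      apply NNReal.coe_le_coe.1
      rw [Real.coe_toNNReal M hM, coe_nnnorm]
      exact h i j
    have h2 : ∑ j, ‖A i j‖₊ ≤ ∑ _j : Fin n, M.toNNReal :=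
      Finset.sum_le_sum fun j _ => h3 j
    refine h2.trans (le_of_eq ?_)
    simp
  have h3 := NNReal.coe_le_coe.2 h1
  rw [NNReal.coe_mul, Real.coe_toNNReal M hM, coe_nnnorm] at h3
  simpa using h3

/-- small matrices: the entries of `X` are at most twice those of `exp X - 1` -/
theorem entry_exp : ∃ δ > 0, ∀ (X : Mat n) (ε : ℝ), (∀ a b, |X a b| ≤ δ) →
    (∀ a b, |NormedSpace.exp X a b - (1 : Mat n) a b| ≤ ε) → ∀ a b, |X a b| ≤ 2 * ε := by
  haveI : CompleteSpace (Mat n) := FiniteDimensional.complete ℝ _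
  obtain ⟨δ, hδ, h⟩ := ExpLoc.exp_close (𝔸 := Mat n) (c := 1 / (2 * ((n : ℝ) + 1)))
    (by positivity)
  have hn : (0 : ℝ) < (n : ℝ) + 1 := by positivity
  refine ⟨δ / (2 * ((n : ℝ) + 1)), by positivity, fun X ε hX hε a b => ?_⟩
  haveI : Nonempty (Fin n × Fin n) := ⟨(a, b)⟩
  obtain ⟨⟨a0, b0⟩, hm⟩ := Finite.exists_max (fun p : Fin n × Fin n => |X p.1 p.2|)
  have hM : ∀ a b, |X a b| ≤ |X a0 b0| := fun a b => hm (a, b)
  have h1 : ‖X‖ ≤ n * |X a0 b0| := norm_le_entry (abs_nonneg _) hM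
  have h1' : ‖X‖ < δ := by
    have h2 : ‖X‖ ≤ n * (δ / (2 * ((n : ℝ) + 1))) := norm_le_entry (by positivity) hX
    refine h2.trans_lt ?_
    rw [mul_div_assoc', div_lt_iff₀ (by positivity)]
    nlinarith
  have h2 := h X 0 h1' (by simpa using hδ)
  rw [NormedSpace.exp_zero, sub_zero] at h2
  have h3 := (entry_le_norm (NormedSpace.exp X - 1 - X) a0 b0).trans h2
  have h4 : |X a0 b0| ≤ |NormedSpace.exp X a0 b0 - (1 : Mat n) a0 b0| +
      |(NormedSpace.exp X - 1 - X) a0 b0| := by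
    have h5 : X a0 b0 = (NormedSpace.exp X a0 b0 - (1 : Mat n) a0 b0) -
        (NormedSpace.exp X - 1 - X) a0 b0 := by
      simp [Matrix.sub_apply]
    calc |X a0 b0| = |(NormedSpace.exp X a0 b0 - (1 : Mat n) a0 b0) -
        (NormedSpace.exp X - 1 - X) a0 b0| := congrArg abs h5
      _ ≤ _ := abs_sub _ _
  have h6 : 1 / (2 * ((n : ℝ) + 1)) * ‖X‖ ≤ |X a0 b0| / 2 := by
    have h7 : ‖X‖ ≤ ((n : ℝ) + 1) * |X a0 b0| := by nlinarith [abs_nonneg (X a0 b0)]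
    rw [div_mul_eq_mul_div, one_mul, div_le_iff₀ (by positivity)]
    nlinarith [abs_nonneg (X a0 b0)]
  have h8 := hε a0 b0
  have h9 := hM a b
  linarith

/-- **[RE-LOG]**, quantitative form. -/
theorem log_ent {ρ : G →* SLn n} (hρ : IsClosedEmbedding ρ) (S : Submodule ℝ (Mat n))
    (hS : ∀ X, X ∈ S ↔ Lie ρ X) : ∃ δ > 0, ∀ (g : G) (ε : ℝ), ε ≤ δ →
      (∀ a b, |(ρ g).1 a b - (1 : Mat n) a b| ≤ ε) →
        ∃ X, Lie ρ X ∧ (ρ g).1 = NormedSpace.exp X ∧ ∀ a b, |X a b| ≤ 2 * ε := by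
  obtain ⟨δ, hδ, h⟩ := entry_exp (n := n)
  have hU : {X : Mat n | ∀ a b, |X a b| ≤ δ} ∈ 𝓝 (0 : Mat n) := by
    have h1 : ∀ a b, ∀ᶠ X in 𝓝 (0 : Mat n), |X a b| ≤ δ := by
      intro a b
      have hc : Continuous fun X : Mat n => |X a b| := by fun_prop
      have h2 := hc.tendsto 0
      simp only [Matrix.zero_apply, abs_zero] at h2
      exact (h2.eventually (eventually_le_nhds hδ))
    have h3 := Filter.eventually_all.2 fun a => Filter.eventually_all.2 fun b => h1 a b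
    exact h3
  obtain ⟨V, hV, hlog⟩ := log_nhds hρ S hS hU
  obtain ⟨δ', hδ', hball⟩ := Metric.mem_nhds_iff.1 hV
  refine ⟨δ' / (2 * ((n : ℝ) + 1)), by positivity, fun g ε hε hg => ?_⟩
  have hmem : (ρ g).1 ∈ V := by
    apply hball
    rw [Metric.mem_ball, dist_eq_norm]
    have h1 : ‖(ρ g).1 - 1‖ ≤ n * (δ' / (2 * ((n : ℝ) + 1))) :=
      norm_le_entry (by positivity) fun a b => by
        rw [Matrix.sub_apply]; exact (hg a b).trans hε
    refine h1.trans_lt ?_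
    rw [mul_div_assoc', div_lt_iff₀ (by positivity)]
    nlinarith
  obtain ⟨X, hXU, hXL, hX⟩ := hlog g hmem
  exact ⟨X, hXL, hX, h X ε hXU fun a b => by rw [← hX]; exact hg a b⟩

/-- small logarithms are unique -/
theorem log_uniq : ∃ δ > 0, ∀ X Y : Mat n, (∀ a b, |X a b| ≤ δ) → (∀ a b, |Y a b| ≤ δ) →
    NormedSpace.exp X = NormedSpace.exp Y → X = Y := by
  haveI : CompleteSpace (Mat n) := FiniteDimensional.complete ℝ _
  obtain ⟨δ, hδ, h⟩ := ExpLoc.exp_inj (𝔸 := Mat n)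
  refine ⟨δ / (2 * ((n : ℝ) + 1)), by positivity, fun X Y hX hY he => h X Y ?_ ?_ he⟩
  · refine (norm_le_entry (by positivity) hX).trans_lt ?_
    rw [mul_div_assoc', div_lt_iff₀ (by positivity)]
    nlinarith
  · refine (norm_le_entry (by positivity) hY).trans_lt ?_
    rw [mul_div_assoc', div_lt_iff₀ (by positivity)]
    nlinarith

end Vale.Agent.P092.H736.Re
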