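import Vale.Agent.P092.H736.RpFin
import Mathlib.Analysis.Calculus.Deriv.Basic

/-!
P092, project ND (helper736), row ND-P: a closed nondiscrete subgroup of a linear group over an
ultrametric local field of characteristic zero in which `ℤ` is dense in the unit ball contains a
one parameter group.
-/

set_option linter.all false

open Filter Topology Matrix

namespace Vale.Agent.P092.H736.Rp

variable {k : Type*} [NontriviallyNormedField k] [IsUltrametricDist k] [CharZero k]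
  {n : ℕ} {G : Type*} [Group G]

attribute [local instance] mnr mna mu mc mp

section

variable [CompleteSpace k] {π r : ℝ}

theorem ep_neg (hπ : Pi k π) {X : Mt n k} (hX : ‖X‖ < π) : ep (-X) * ep X = 1 := by
  have h : ep (-X + X) = ep (-X) * ep X :=
    exp_add hπ (Commute.neg_left (Commute.refl X)) (by rw [norm_neg]; exact hX) hX
  rw [← h, neg_add_cancel, ep_zero]

theorem norm_smul_le' {t : k} (ht : ‖t‖ ≤ 1) (X : Mt n k) : ‖t • X‖ ≤ ‖X‖ := by
  rw [norm_smul]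
  exact mul_le_of_le_one_left (norm_nonneg _) ht

/-- integral multiples of a logarithm -/
theorem ep_int (hπ : Pi k π) (φ : G →* Mt n k) {g : G} {X : Mt n k} (hX : ‖X‖ < π)
    (h : φ g = ep X) (m : ℤ) : φ (g ^ m) = ep ((m : k) • X) := by
  obtain ⟨m, rfl | rfl⟩ := m.eq_nat_or_neg
  · rw [zpow_natCast, map_pow, h, ← ep_nsmul hπ hX, Int.cast_natCast]
  · have h1 : φ (g ^ (m : ℤ)) = ep ((m : k) • X) := by
      rw [zpow_natCast, map_pow, h, ← ep_nsmul hπ hX]
    have h2 : ep (-((m : k) • X)) * ep ((m : k) • X) = 1 :=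
      ep_neg hπ ((norm_smul_le' (norm_nat_le m) X).trans_lt hX)
    have h3 : ep ((m : k) • X) * φ (g ^ (-(m : ℤ))) = 1 := by
      rw [← h1, ← map_mul, ← zpow_add, add_neg_cancel, zpow_zero, map_one]
    rw [Int.cast_neg, Int.cast_natCast, neg_smul]
    exact (left_inv_eq_right_inv h2 h3).symm

/-- the one parameter group is in the closure -/
theorem ep_mem (hπ : Pi k π) (hZ : ∀ t : k, ‖t‖ ≤ 1 → t ∈ closure (Set.range ((↑) : ℤ → k)))
    (φ : G →* Mt n k) {S : Set (Mt n k)} (hS : IsClosed S) {g : G} {X : Mt n k} (hX : ‖X‖ < π)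
    (h : φ g = ep X) (hg : ∀ m : ℤ, φ (g ^ m) ∈ S) {t : k} (ht : ‖t‖ ≤ 1) : ep (t • X) ∈ S := by
  obtain ⟨u, hu, hlim⟩ := mem_closure_iff_seq_limit.1 (hZ t ht)
  have h1 : Tendsto (fun j => ep (u j • X)) atTop (𝓝 (ep (t • X))) := by
    refine tendsto_iff_norm_sub_tendsto_zero.2 ?_
    have h2 : ∀ j, ‖ep (u j • X) - ep (t • X)‖ = ‖u j - t‖ * ‖X‖ := by
      intro j
      obtain ⟨m, hm⟩ := hu j
      have hj : ‖u j‖ ≤ 1 := by rw [← hm]; exact IsUltrametricDist.norm_intCast_le_one k m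
      rw [ep_iso hπ (norm_nonneg X) hX _ _ (norm_smul_le' hj X) (norm_smul_le' ht X), ← sub_smul,
        norm_smul]
    simp only [h2]
    have h3 := (tendsto_iff_norm_sub_tendsto_zero.1 hlim).mul_const ‖X‖
    rwa [zero_mul] at h3
  refine hS.mem_of_tendsto h1 (Eventually.of_forall fun j => ?_)
  obtain ⟨m, hm⟩ := hu j
  rw [← hm, ← ep_int hπ φ hX h m]
  exact hg m

/-- the one parameter group is strictly differentiable at `0` -/
theorem ep_strict (hπ : Pi k π) (X : Mt n k) {F : k → Mt n k}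
    (hF : ∀ t : k, ‖t‖ ≤ 1 → F t = ep (t • X)) (i j : Fin n) :
    HasStrictDerivAt (fun t => F t i j) (X i j) 0 := by
  rw [hasStrictDerivAt_iff_hasStrictFDerivAt, hasStrictFDerivAt_iff_isLittleO,
    Asymptotics.isLittleO_iff]
  intro c hc
  set δ : ℝ := min 1 (min (π / 2) (c * π) / (‖X‖ ^ 2 + ‖X‖ + 1)) with hδ
  have hden : 0 < ‖X‖ ^ 2 + ‖X‖ + 1 := by positivity
  have hδ0 : 0 < δ := lt_min one_pos (div_pos (lt_min (half_pos hπ.1) (mul_pos hc hπ.1)) hden)
  have hδ1 : δ ≤ 1 := min_le_left _ _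
  have hδ2 : δ * (‖X‖ ^ 2 + ‖X‖ + 1) ≤ min (π / 2) (c * π) := by
    have : δ ≤ min (π / 2) (c * π) / (‖X‖ ^ 2 + ‖X‖ + 1) := min_le_right _ _
    rwa [le_div_iff₀ hden] at this
  have hδX : δ * ‖X‖ ≤ π / 2 := by
    refine le_trans ?_ (hδ2.trans (min_le_left _ _))
    exact mul_le_mul_of_nonneg_left (by nlinarith [norm_nonneg X, sq_nonneg ‖X‖]) hδ0.le
  have hδX2 : δ * ‖X‖ ^ 2 ≤ c * π := by
    refine le_trans ?_ (hδ2.trans (min_le_right _ _))
    exact mul_le_mul_of_nonneg_left (by nlinarith [norm_nonneg X]) hδ0.le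
  have hev : ∀ᶠ p : k × k in 𝓝 ((0 : k), (0 : k)), ‖p.1‖ ≤ δ ∧ ‖p.2‖ ≤ δ := by
    have h1 : ∀ᶠ t : k in 𝓝 (0 : k), ‖t‖ ≤ δ := by
      filter_upwards [Metric.closedBall_mem_nhds (0 : k) hδ0] with t ht
      simpa using ht
    rw [nhds_prod_eq]
    exact h1.prod_mk h1
  filter_upwards [hev] with p hp
  have hp1 := hF p.1 (hp.1.trans hδ1)
  have hp2 := hF p.2 (hp.2.trans hδ1)
  have hn : ∀ t : k, ‖t‖ ≤ δ → ‖t • X‖ ≤ δ * ‖X‖ := fun t ht => by
    rw [norm_smul]; exact mul_le_mul_of_nonneg_right ht (norm_nonneg _)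
  have h1 := ep_close hπ (by positivity : 0 ≤ δ * ‖X‖)
    (hδX.trans_lt (half_lt_self hπ.1)) (p.1 • X) (p.2 • X) (hn _ hp.1) (hn _ hp.2)
  have h2 : ‖F p.1 i j - F p.2 i j - (p.1 - p.2) * X i j‖ ≤
      ‖ep (p.1 • X) - ep (p.2 • X) - (p.1 • X - p.2 • X)‖ := by
    rw [hp1, hp2]
    have h3 := entry_le (ep (p.1 • X) - ep (p.2 • X) - (p.1 • X - p.2 • X)) i j
    refine le_trans (le_of_eq ?_) h3
    congr 1
    simp only [Matrix.sub_apply, Matrix.smul_apply, smul_eq_mul]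
    ring
  have h4 : ‖F p.1 i j - F p.2 i j - (p.1 - p.2) * X i j‖ ≤ c * ‖p.1 - p.2‖ := by
    refine (h2.trans h1).trans ?_
    rw [← sub_smul, norm_smul]
    calc δ * ‖X‖ / π * (‖p.1 - p.2‖ * ‖X‖) = (δ * ‖X‖ ^ 2) / π * ‖p.1 - p.2‖ := by ring
      _ ≤ (c * π) / π * ‖p.1 - p.2‖ := by
          exact mul_le_mul_of_nonneg_right (div_le_div_of_nonneg_right hδX2 hπ.1.le) (norm_nonneg _)
      _ = c * ‖p.1 - p.2‖ := by rw [mul_div_cancel_right₀ _ hπ.1.ne']
  simpa using h4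

/-- **[ND-P], matrix form.** -/
theorem exists_one_param (hZ : ∀ t : k, ‖t‖ ≤ 1 → t ∈ closure (Set.range ((↑) : ℤ → k)))
    [TopologicalSpace G] [IsTopologicalGroup G] {φ : G →* Mt n k} (hφ : IsClosedEmbedding φ)
    (H : Subgroup G) (hH : IsClosed (H : Set G)) (hd : ¬ DiscreteTopology H) :
    ∃ (X : Mt n k) (γ : k → G), X ≠ 0 ∧ (∀ t, γ t ∈ H) ∧ γ 0 = 1 ∧
      (∀ t : k, ‖t‖ ≤ 1 → φ (γ t) = ep (t • X)) ∧
      ∀ i j, HasStrictDerivAt (fun t => φ (γ t) i j) (X i j) 0 := by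
  classical
  obtain ⟨π, hπ⟩ := exists_pi (k := k)
  have hπ : Pi k π := hπ
  have hr : 0 < π / 2 := half_pos hπ.1
  have hrπ : π / 2 < π := half_lt_self hπ.1
  -- a nontrivial element near `1`
  obtain ⟨h, hhH, hh1, hhn⟩ : ∃ h ∈ H, h ≠ 1 ∧ ‖φ h - 1‖ ≤ π / 2 := by
    by_contra hcon
    push Not at hcon
    apply hd
    apply discreteTopology_of_isOpen_singleton_one
    have h1 : ({1} : Set H) = (fun x : H => φ x.1) ⁻¹' (Metric.ball (1 : Mt n k) (π / 2)) := by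
      ext x
      rw [Set.mem_singleton_iff, Set.mem_preimage, mem_ball_iff_norm]
      constructor
      · rintro rfl
        show ‖φ 1 - 1‖ < π / 2
        rw [map_one, sub_self, norm_zero]; exact hr
      · intro hx
        by_contra hne
        exact absurd hx.le (not_le.2 (hcon x.1 x.2 (fun h0 => hne (Subtype.ext h0))))
    rw [h1]
    exact Metric.isOpen_ball.preimage (hφ.continuous.comp continuous_subtype_val)
  obtain ⟨X, hX, hXg⟩ := ep_surj hπ hrπ (φ h) hhn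
  have hX0 : X ≠ 0 := by
    rintro rfl
    rw [ep_zero] at hXg
    exact hh1 (hφ.injective (by rw [map_one]; exact hXg.symm))
  have hS : IsClosed (φ '' (H : Set G)) := hφ.isClosedMap _ hH
  have hmem : ∀ t : k, ‖t‖ ≤ 1 → ∃ g ∈ H, φ g = ep (t • X) := by
    intro t ht
    have := ep_mem hπ hZ φ hS (hX.trans_lt hrπ) hXg.symm
      (fun m => ⟨h ^ m, H.zpow_mem hhH m, rfl⟩) ht
    exact this
  let γ : k → G := fun t => if ht : ‖t‖ ≤ 1 then (hmem t ht).choose else 1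
  have hγ : ∀ t : k, ‖t‖ ≤ 1 → γ t ∈ H ∧ φ (γ t) = ep (t • X) := by
    intro t ht
    have h1 : γ t = (hmem t ht).choose := dif_pos ht
    rw [h1]; exact (hmem t ht).choose_spec
  refine ⟨X, γ, hX0, fun t => ?_, ?_, fun t ht => (hγ t ht).2,
    fun i j => ep_strict hπ X (fun t ht => (hγ t ht).2) i j⟩
  · by_cases ht : ‖t‖ ≤ 1
    · exact (hγ t ht).1
    · have h1 : γ t = 1 := dif_neg ht
      rw [h1]; exact H.one_mem
  · apply hφ.injective
    rw [map_one, (hγ 0 (by simp)).2, zero_smul, ep_zero]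

end

end Vale.Agent.P092.H736.Rp
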