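import Vale.Agent.P092.H736.RpFin
import Mathlib.GroupTheory.PGroup

/-!
P092, project RP, block P9 (helper736): the maximal volume of a compact open subgroup is attained
(field `vol` of `QC.Td`).
-/

set_option linter.all false

open Filter Topology MeasureTheory MeasureTheory.Measure Matrix
open scoped NNReal ENNReal

namespace Vale.Agent.P092.H736.Rp

section p

variable {k : Type*} [NontriviallyNormedField k] [IsUltrametricDist k] [ProperSpace k] [CharZero k]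

/-- the residue characteristic is positive -/
theorem exists_p (k : Type*) [NontriviallyNormedField k] [IsUltrametricDist k] [ProperSpace k]
    [CharZero k] : ∃ p : ℕ, p.Prime ∧ ‖(p : k)‖ < 1 := by
  by_contra h
  push Not at h
  have h1 : ∀ n : ℕ, n ≠ 0 → ‖(n : k)‖ = 1 := by
    intro n
    induction n using Nat.strong_induction_on with
    | _ n ih =>
      intro hn
      by_cases hn1 : n = 1
      · subst hn1; simp
      · obtain ⟨p, hp, w, rfl⟩ := Nat.exists_prime_and_dvd hn1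
        have hw : w ≠ 0 := by rintro rfl; simp at hn
        have hlt : w < p * w := by
          have := hp.two_le
          nlinarith [Nat.pos_of_ne_zero hw]
        push_cast
        rw [norm_mul, ih w hlt hw, mul_one]
        exact le_antisymm (norm_nat_le p) (h p hp)
  obtain ⟨a, -, φ, hφ, hlim⟩ := (isCompact_closedBall (0 : k) 1).tendsto_subseq
    (x := fun n : ℕ => (n : k)) (fun n => by
      rw [mem_closedBall_zero_iff]; exact norm_nat_le n)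
  have hc := hlim.cauchySeq
  rw [Metric.cauchySeq_iff'] at hc
  obtain ⟨N, hN⟩ := hc (1 / 2) (by norm_num)
  have h2 := hN (N + 1) (Nat.le_succ N)
  have h3 : φ N < φ (N + 1) := hφ (Nat.lt_succ_self N)
  obtain ⟨e, he⟩ := Nat.exists_eq_add_of_lt h3
  have h4 : (((φ (N + 1) : ℕ) : k)) - ((φ N : ℕ) : k) = ((e + 1 : ℕ) : k) := by
    rw [he]; push_cast; ring
  simp only [Function.comp_apply, dist_eq_norm] at h2
  rw [h4, h1 _ (Nat.succ_ne_zero e)] at h2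
  norm_num at h2

end p

/-- indices above a normal subgroup with `p`-power torsion quotient -/
theorem ppow_grp {G : Type*} [Group G] {p : ℕ} (hp : p.Prime) (N T V : Subgroup G)
    (hnorm : ∀ a ∈ T, ∀ g ∈ N, a * g * a⁻¹ ∈ N) (hfin : N.relIndex T ≠ 0)
    (hpow : ∀ a ∈ T, ∃ m : ℕ, a ^ p ^ m ∈ N) (hV : N ⊓ T ≤ V) : ∃ j, V.relIndex T = p ^ j := by
  haveI : Fact p.Prime := ⟨hp⟩
  haveI hN : (N.subgroupOf T).Normal := ⟨fun g hg a => hnorm a.1 a.2 g.1 hg⟩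
  haveI : Finite (T ⧸ N.subgroupOf T) := (Subgroup.finiteIndex_iff_finite_quotient).1 ⟨hfin⟩
  have hpg : IsPGroup p (T ⧸ N.subgroupOf T) := by
    intro x
    obtain ⟨a, rfl⟩ := QuotientGroup.mk_surjective x
    obtain ⟨m, hm⟩ := hpow a.1 a.2
    refine ⟨m, ?_⟩
    rw [← QuotientGroup.mk_pow, QuotientGroup.eq_one_iff]
    exact hm
  obtain ⟨M, hM⟩ := (IsPGroup.iff_card).1 hpg
  have h1 : (N ⊓ T).relIndex T = p ^ M := by
    rw [Subgroup.inf_relIndex_right]; exact hM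
  have h2 : V.relIndex T ∣ (N ⊓ T).relIndex T := Subgroup.relIndex_dvd_of_le_left T hV
  rw [h1] at h2
  obtain ⟨j, -, hj⟩ := (Nat.dvd_prime_pow hp).1 h2
  exact ⟨j, hj⟩

variable {k : Type*} [NontriviallyNormedField k] [IsUltrametricDist k] [ProperSpace k] [CharZero k]
  {n d : ℕ} {G : Type*} [Group G]

attribute [local instance] mnr mna mu mc mp

variable {π r r₀ : ℝ} {φ : G →* Mt n k} {ι : (Fin d → k) →ₗ[k] Mt n k}

omit [ProperSpace k] [CharZero k] in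
/-- congruence subgroups are normalised by integral elements -/
theorem Ag_conj {s : ℝ} (hs : 0 ≤ s) {a g : G} (ha : ‖φ a‖ ≤ 1) (ha' : ‖φ a⁻¹‖ ≤ 1)
    (hg : g ∈ Ag φ s) : a * g * a⁻¹ ∈ Ag φ s := by
  obtain ⟨h1, h2, h3⟩ := (mem_Ag hs).1 hg
  have h0 : φ a * φ a⁻¹ = 1 := by rw [← map_mul, mul_inv_cancel, map_one]
  have key : ∀ x : Mt n k, ∀ c : ℝ, ‖x‖ ≤ c → ‖φ a * x * φ a⁻¹‖ ≤ c := by
    intro x c hx
    have hc : 0 ≤ c := (norm_nonneg _).trans hx
    refine (norm_mul_le _ _).trans ?_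
    calc _ ≤ (1 * c) * 1 := mul_le_mul ((norm_mul_le _ _).trans
          (mul_le_mul ha hx (norm_nonneg _) zero_le_one)) ha' (norm_nonneg _) (by positivity)
      _ = c := by ring
  refine (mem_Ag hs).2 ⟨?_, ?_, ?_⟩
  · have e : φ (a * g * a⁻¹) - 1 = φ a * (φ g - 1) * φ a⁻¹ := by
      rw [map_mul, map_mul, mul_sub, sub_mul, mul_one, h0]
    rw [e]; exact key _ _ h1
  · rw [map_mul, map_mul]; exact key _ _ h2
  · have e : (a * g * a⁻¹)⁻¹ = a * g⁻¹ * a⁻¹ := by group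
    rw [e, map_mul, map_mul]; exact key _ _ h3

omit [ProperSpace k] in
/-- powers of elements near `1` tend to `1` -/
theorem LG.pow_mem [CompleteSpace k] (hL : LG φ ι) (hπ : Pi k π) (hrπ : r < π) {p : ℕ}
    (hp1 : ‖(p : k)‖ < 1) {s : ℝ} (hs : 0 < s) (hs1 : s < 1) {g : G} (hg : ‖φ g - 1‖ ≤ r) :
    ∃ m : ℕ, g ^ p ^ m ∈ Ag φ s := by
  obtain ⟨c, hc, hcg⟩ := hL.exists_log hπ hrπ hg
  have h1 : Tendsto (fun m : ℕ => ‖(p : k)‖ ^ m * ‖ι c‖) atTop (𝓝 (0 * ‖ι c‖)) :=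
    (tendsto_pow_atTop_nhds_zero_of_lt_one (norm_nonneg _) hp1).mul_const _
  rw [zero_mul] at h1
  obtain ⟨m, hm⟩ := (h1.eventually (gt_mem_nhds hs)).exists
  refine ⟨m, (mem_Ag' hs.le hs1).2 ?_⟩
  have h2 : φ (g ^ p ^ m) = ep (((p ^ m : ℕ) : k) • ι c) := by
    rw [map_pow, ep_nsmul hπ (hc.trans_lt hrπ), hcg]
  have h3 : ‖((p ^ m : ℕ) : k) • ι c‖ ≤ ‖ι c‖ := norm_nsmul_le' _ _
  rw [h2, ep_sub_one hπ _ (h3.trans_lt (hc.trans_lt hrπ)), norm_smul]
  push_cast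
  rw [norm_pow]
  exact hm.le

omit [ProperSpace k] [CharZero k] in
/-- indices in small groups are powers of `p` -/
theorem ppow (hL : LG φ ι) [ProperSpace k] [CharZero k] (hπ : Pi k π) (hr : 0 < r) (hrπ : r < π)
    (hr1 : r < 1) {p : ℕ}
    (hp : p.Prime) (hp1 : ‖(p : k)‖ < 1) {V T : Subgroup G} (hT : T ≤ Ag φ r) {s : ℝ} (hs : 0 < s)
    (hsr : s ≤ r) (hV : Ag φ s ⊓ T ≤ V) : ∃ j, V.relIndex T = p ^ j := by
  have hs1 : s < 1 := hsr.trans_lt hr1
  have hTr : ∀ a ∈ T, ‖φ a - 1‖ ≤ r ∧ ‖φ a‖ ≤ 1 ∧ ‖φ a⁻¹‖ ≤ 1 := fun a ha =>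
    (mem_Ag hr.le).1 (hT ha)
  have hfin : (Ag φ s).relIndex T ≠ 0 := by
    have n2 : (Bg ι s).relIndex (Bg ι r) ≠ 0 :=
      add_ne_zero (Bg_open ι hs) (Bg_compact hL.inj hr.le)
    have := (hL.idx1 hπ hr.le hrπ hr1 hs.le n2).2
    exact fun h0 => this (Subgroup.relIndex_eq_zero_of_le_right hT h0)
  exact ppow_grp hp (Ag φ s) T V
    (fun a ha g hg => Ag_conj hs.le (hTr a ha).2.1 (hTr a ha).2.2 hg) hfin
    (fun a ha => hL.pow_mem hπ hrπ hp1 hs hs1 (hTr a ha).1) hV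

variable [TopologicalSpace G] [IsTopologicalGroup G]

omit [IsTopologicalGroup G] in
/-- the relative volume does not depend on the subgroup used to measure it -/
theorem ratio {W K V V' : Subgroup G} (h : V' ≤ V) (hW : V ≤ W) (hK : V ≤ K)
    (h0 : V'.relIndex V ≠ 0) :
    ((V'.relIndex W : ℕ) : ℝ) / (V'.relIndex K : ℕ) = ((V.relIndex W : ℕ) : ℝ) / (V.relIndex K : ℕ) := by
  rw [← Subgroup.relIndex_mul_relIndex V' V W h hW, ← Subgroup.relIndex_mul_relIndex V' V K h hK]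
  push_cast
  exact mul_div_mul_left _ _ (by exact_mod_cast h0)

/-- **[RP-P9], attained form**: the field `vol` of `QC.Td`. -/
theorem vol_max (hD : Dat φ ι) : ∃ K : Subgroup G, IsOpen (K : Set G) ∧
    IsCompact (K : Set G) ∧ ∀ U W : Subgroup G, IsOpen (U : Set G) → IsOpen (W : Set G) →
      IsCompact (W : Set G) → U ≤ W → U ≤ K → U.relIndex W ≤ U.relIndex K := by
  obtain ⟨π, r, r₀, hC⟩ := hD.cst
  obtain ⟨c, hc⟩ := small_bd hD hC
  obtain ⟨p, hp, hp1⟩ := exists_p k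
  obtain ⟨t, ht⟩ := exists_cover n k hC.r0
  have hφc : Continuous φ := hD.emb.continuous
  set K₀ := Ag φ r₀ with hK₀
  have hK0o : IsOpen (K₀ : Set G) := Ag_open hφc hC.r₀0
  have hK0c : IsCompact (K₀ : Set G) :=
    K0_compact hD hC.pi hC.r₀0 (hC.r₀r.trans_lt hC.rπ) (hC.r₀r.trans_lt hC.r1) hC.ex
  have hcpt : ∀ {U W : Subgroup G}, IsOpen (U : Set G) → IsCompact (W : Set G) → U ≤ W →
      IsCompact (U : Set G) := fun hU hW h =>
    hW.of_isClosed_subset (Subgroup.isClosed_of_isOpen _ hU) h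
  let v : Subgroup G → ℝ := fun W =>
    (((W ⊓ K₀).relIndex W : ℕ) : ℝ) / ((W ⊓ K₀).relIndex K₀ : ℕ)
  have hv : ∀ W V : Subgroup G, IsOpen (W : Set G) → IsCompact (W : Set G) → IsOpen (V : Set G) →
      V ≤ W → V ≤ K₀ → v W = ((V.relIndex W : ℕ) : ℝ) / (V.relIndex K₀ : ℕ) := by
    intro W V hWo hWc hVo hVW hVK
    have hWK : IsOpen ((W ⊓ K₀ : Subgroup G) : Set G) := hWo.inter hK0o
    exact (ratio (le_inf hVW hVK) inf_le_left inf_le_right
      (relIndex_ne hVo (hcpt hWK hWc inf_le_left))).symm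
  -- values
  have hval : ∀ W : Subgroup G, IsOpen (W : Set G) → IsCompact (W : Set G) →
      ∃ m : ℕ, ∃ z : ℤ, 1 ≤ m ∧ m ≤ t.card ∧ v W = (m : ℝ) * (p : ℝ) ^ z := by
    intro W hW hWc
    obtain ⟨h, hh⟩ := exists_h hφc hWc
    have hφ'c : Continuous (cjφ h φ) := (cjl h).continuous.comp hφc
    have i3 := idx_cong (φ := cjφ h φ) hC.r0 t ht W hh
    set We := W ⊓ Ag (cjφ h φ) r with hWe
    have hWeo : IsOpen (We : Set G) := hW.inter (Ag_open hφ'c hC.r0)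
    have hVo : IsOpen ((We ⊓ K₀ : Subgroup G) : Set G) := hWeo.inter hK0o
    obtain ⟨ε₁, hε₁, hA1⟩ := exists_Ag_le hD.emb.isInducing h hK0o
    obtain ⟨ε₂, hε₂, hA2⟩ := exists_Ag_le hD.emb.isInducing 1 hVo
    rw [cjφ_one] at hA2
    have hs1 : 0 < min r ε₁ := lt_min hC.r0 hε₁
    have hs2 : 0 < min r₀ ε₂ := lt_min hC.r₀0 hε₂
    obtain ⟨j, hj⟩ := ppow (V := We ⊓ K₀) (hD.lg.cj h) hC.pi hC.r0 hC.rπ hC.r1 hp hp1
      (T := We) inf_le_right hs1 (min_le_left _ _)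
      (le_inf inf_le_right (inf_le_left.trans (hA1 _ hs1 (min_le_right _ _))))
    obtain ⟨i, hi⟩ := ppow (V := We ⊓ K₀) hD.lg hC.pi hC.r₀0 (hC.r₀r.trans_lt hC.rπ)
      (hC.r₀r.trans_lt hC.r1) hp hp1 (T := K₀) le_rfl hs2 (min_le_left _ _)
      (inf_le_left.trans (hA2 _ hs2 (min_le_right _ _)))
    refine ⟨We.relIndex W, (j : ℤ) - i, Nat.one_le_iff_ne_zero.2 i3.2, i3.1, ?_⟩
    rw [hv W (We ⊓ K₀) hW hWc hVo (inf_le_left.trans inf_le_left) inf_le_right,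
      ← Subgroup.relIndex_mul_relIndex (We ⊓ K₀) We W inf_le_left inf_le_left, hj, hi]
    have hp0 : (p : ℝ) ≠ 0 := by exact_mod_cast hp.ne_zero
    rw [zpow_sub₀ hp0, zpow_natCast, zpow_natCast]
    push_cast
    ring
  have hbd : ∀ W : Subgroup G, IsOpen (W : Set G) → IsCompact (W : Set G) → v W ≤ c := by
    intro W hW hWc
    obtain ⟨s, hs, hsU, hsW, h⟩ := hc W hW hWc K₀ hK0o
    rw [hv W (Ag φ s) hW hWc (Ag_open hφc hs) hsW hsU]
    have h0 : (0 : ℝ) < ((Ag φ s).relIndex K₀ : ℕ) := by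
      exact_mod_cast Nat.pos_of_ne_zero (relIndex_ne (Ag_open hφc hs) hK0c)
    rw [div_le_iff₀ h0]
    exact_mod_cast h
  -- finiteness of the set of large values
  set S : Set ℝ := {x | 1 ≤ x ∧ ∃ W : Subgroup G, IsOpen (W : Set G) ∧ IsCompact (W : Set G) ∧
    v W = x} with hS
  have hp2 : (1 : ℝ) < p := by exact_mod_cast hp.one_lt
  have hp0 : (0 : ℝ) < p := zero_lt_one.trans hp2
  set J := max c t.card with hJ
  have hJp : (J : ℝ) < (p : ℝ) ^ J := by exact_mod_cast Nat.lt_pow_self hp.one_lt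
  have hSfin : S.Finite := by
    have hf : ((fun q : ℕ × ℤ => (q.1 : ℝ) * (p : ℝ) ^ q.2) ''
        ((Set.Icc 0 t.card) ×ˢ (Set.Icc (-(J : ℤ)) J))).Finite :=
      ((Set.finite_Icc _ _).prod (Set.finite_Icc _ _)).image _
    refine hf.subset ?_
    rintro x ⟨hx1, W, hW, hWc, rfl⟩
    obtain ⟨m, z, hm1, hm2, hvz⟩ := hval W hW hWc
    have hc' := hbd W hW hWc
    refine ⟨(m, z), ⟨⟨Nat.zero_le _, hm2⟩, ?_, ?_⟩, hvz.symm⟩
    · -- `p ^ z ≥ 1 / t.card`
      by_contra hz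
      push Not at hz
      have hz' : z + J ≤ 0 := by
        have : z < -(J : ℤ) := hz
        omega
      have h1 : (p : ℝ) ^ z * (p : ℝ) ^ (J : ℤ) ≤ 1 := by
        rw [← zpow_add₀ hp0.ne']
        exact zpow_le_one_of_nonpos₀ hp2.le hz'
      rw [zpow_natCast] at h1
      have h2 : (m : ℝ) ≤ J := by exact_mod_cast hm2.trans (le_max_right _ _)
      have h3 : 0 < (p : ℝ) ^ z := zpow_pos hp0 z
      have h4 : (m : ℝ) * (p : ℝ) ^ z < 1 := by
        calc (m : ℝ) * (p : ℝ) ^ z ≤ J * (p : ℝ) ^ z := mul_le_mul_of_nonneg_right h2 h3.le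
          _ < (p : ℝ) ^ J * (p : ℝ) ^ z := mul_lt_mul_of_pos_right hJp h3
          _ = (p : ℝ) ^ z * (p : ℝ) ^ J := mul_comm _ _
          _ ≤ 1 := h1
      rw [← hvz] at h4
      exact absurd hx1 (not_le.2 h4)
    · by_contra hz
      push Not at hz
      have hz' : (J : ℤ) ≤ z := hz.le
      have h1 : (p : ℝ) ^ (J : ℤ) ≤ (p : ℝ) ^ z := zpow_le_zpow_right₀ hp2.le hz'
      rw [zpow_natCast] at h1
      have h2 : (c : ℝ) ≤ J := by exact_mod_cast le_max_left _ _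
      have h3 : (1 : ℝ) ≤ m := by exact_mod_cast hm1
      have h4 : 0 < (p : ℝ) ^ z := zpow_pos hp0 z
      have h5 : (p : ℝ) ^ z ≤ v W := by
        rw [hvz]
        exact le_mul_of_one_le_left h4.le h3
      linarith
  have hSne : S.Nonempty := ⟨1, le_rfl, K₀, hK0o, hK0c, by
    show (((K₀ ⊓ K₀).relIndex K₀ : ℕ) : ℝ) / ((K₀ ⊓ K₀).relIndex K₀ : ℕ) = 1
    rw [inf_idem, Subgroup.relIndex_self]; simp⟩
  obtain ⟨x, hxS, hx⟩ := Set.exists_max_image S id hSfin hSne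
  obtain ⟨hx1, K, hK, hKc, rfl⟩ := hxS
  have hmax : ∀ W : Subgroup G, IsOpen (W : Set G) → IsCompact (W : Set G) → v W ≤ v K := by
    intro W hW hWc
    rcases le_total 1 (v W) with h | h
    · exact hx _ ⟨h, W, hW, hWc, rfl⟩
    · exact h.trans hx1
  refine ⟨K, hK, hKc, fun U W hU hW hWc hUW hUK => ?_⟩
  have hVo : IsOpen ((U ⊓ K₀ : Subgroup G) : Set G) := hU.inter hK0o
  have h1 := hmax W hW hWc
  rw [hv W (U ⊓ K₀) hW hWc hVo (inf_le_left.trans hUW) inf_le_right,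
    hv K (U ⊓ K₀) hK hKc hVo (inf_le_left.trans hUK) inf_le_right] at h1
  have h0 : (0 : ℝ) < ((U ⊓ K₀).relIndex K₀ : ℕ) := by
    exact_mod_cast Nat.pos_of_ne_zero (relIndex_ne hVo hK0c)
  rw [div_le_div_iff_of_pos_right h0] at h1
  have h2 : (U ⊓ K₀).relIndex W ≤ (U ⊓ K₀).relIndex K := by exact_mod_cast h1
  rw [← Subgroup.relIndex_mul_relIndex (U ⊓ K₀) U W inf_le_left hUW,
    ← Subgroup.relIndex_mul_relIndex (U ⊓ K₀) U K inf_le_left hUK] at h2
  have h3 : 0 < (U ⊓ K₀).relIndex U :=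
    Nat.pos_of_ne_zero (relIndex_ne hVo (hcpt hU hKc hUK))
  exact Nat.le_of_mul_le_mul_left h2 h3

end Vale.Agent.P092.H736.Rp
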