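import Vale.Agent.P092.H736.RpMain

/-!
P092, project RP, block P9 (helper736): volumes of compact open subgroups are bounded.
-/

set_option linter.all false

open Filter Topology MeasureTheory MeasureTheory.Measure Matrix
open scoped NNReal ENNReal

namespace Vale.Agent.P092.H736.Rp

variable {k : Type*} [NontriviallyNormedField k] [IsUltrametricDist k] [ProperSpace k] [CharZero k]
  {n d : ℕ} {G : Type*} [Group G]

attribute [local instance] mnr mna mu mc mp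

/-- the Gram matrix of the trace form -/
def gram (ι : (Fin d → k) →ₗ[k] Mt n k) : Matrix (Fin d) (Fin d) k :=
  Matrix.of fun i j => (ι (Pi.single i 1) * ι (Pi.single j 1)).trace

omit [IsUltrametricDist k] [ProperSpace k] [CharZero k] in
theorem gram_apply (ι : (Fin d → k) →ₗ[k] Mt n k) (x y : Fin d → k) :
    x ⬝ᵥ gram ι *ᵥ y = (ι x * ι y).trace := by
  have hx : ι x = ∑ i, x i • ι (Pi.single i 1) := by
    conv_lhs => rw [pi_eq_sum_univ' x]
    rw [_root_.map_sum]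
    refine Finset.sum_congr rfl fun i _ => ?_
    rw [map_smul]
  have hy : ι y = ∑ i, y i • ι (Pi.single i 1) := by
    conv_lhs => rw [pi_eq_sum_univ' y]
    rw [_root_.map_sum]
    refine Finset.sum_congr rfl fun i _ => ?_
    rw [map_smul]
  rw [hx, hy, Finset.sum_mul, Matrix.trace_sum]
  simp only [dotProduct, mulVec, gram, Matrix.of_apply]
  refine Finset.sum_congr rfl fun i _ => ?_
  rw [Finset.mul_sum, Finset.mul_sum, Matrix.trace_sum]
  refine Finset.sum_congr rfl fun j _ => ?_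
  rw [smul_mul_assoc, mul_smul_comm, Matrix.trace_smul, Matrix.trace_smul, smul_eq_mul,
    smul_eq_mul]
  ring

omit [ProperSpace k] [CharZero k] in
theorem gram_le {ι : (Fin d → k) →ₗ[k] Mt n k} (h : (Mt n k)ˣ) {r : ℝ} (hr : 0 ≤ r) (hr1 : r ≤ 1)
    {x y : Fin d → k} (hx : x ∈ Bg (cjι h ι) r) (hy : y ∈ Bg (cjι h ι) r) :
    ‖x ⬝ᵥ gram ι *ᵥ y‖ ≤ 1 := by
  rw [gram_apply, ← cjl_trace h, cjl_mul]
  rw [mem_Bg hr, cjι_apply] at hx hy
  exact (norm_trace_le _).trans ((norm_mul_le _ _).trans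
    (mul_le_one₀ (hx.trans hr1) (norm_nonneg _) (hy.trans hr1)))

/-- representation data: `φ` an embedding with Lie algebra `ι` -/
structure Dat [TopologicalSpace G] (φ : G →* Mt n k) (ι : (Fin d → k) →ₗ[k] Mt n k) : Prop where
  emb : IsEmbedding φ
  lg : LG φ ι
  nd : (gram ι).det ≠ 0
  ex : ∃ ε > 0, ∀ c, ‖ι c‖ ≤ ε → ∃ g, φ g = ep (ι c)

variable [TopologicalSpace G] [IsTopologicalGroup G] {π r r₀ : ℝ}

omit [IsTopologicalGroup G] in
theorem K0_compact {φ : G →* Mt n k} {ι : (Fin d → k) →ₗ[k] Mt n k} (hD : Dat φ ι)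
    (hπ : Pi k π) (hr : 0 < r₀) (hrπ : r₀ < π) (hr1 : r₀ < 1)
    (hex : ∀ c, ‖ι c‖ ≤ r₀ → ∃ g, φ g = ep (ι c)) : IsCompact (Ag φ r₀ : Set G) := by
  rw [hD.emb.isInducing.isCompact_iff]
  have h1 : (φ '' (Ag φ r₀ : Set G)) = (fun c => ep (ι c)) '' (Bg ι r₀ : Set (Fin d → k)) := by
    ext A
    constructor
    · rintro ⟨g, hg, rfl⟩
      obtain ⟨c, hc, hcg⟩ := hD.lg.exists_log hπ hrπ ((mem_Ag' hr.le hr1).1 hg)
      exact ⟨c, (mem_Bg hr.le).2 hc, hcg⟩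
    · rintro ⟨c, hc, rfl⟩
      have hc' := (mem_Bg hr.le).1 hc
      obtain ⟨g, hg⟩ := hex c hc'
      refine ⟨g, (mem_Ag' hr.le hr1).2 ?_, hg⟩
      rw [hg, ep_sub_one hπ _ (hc'.trans_lt hrπ)]
      exact hc'
  rw [h1]
  refine (Bg_compact hD.lg.inj hr.le).image_of_continuousOn ?_
  have hc : Continuous ι := LinearMap.continuous_of_finiteDimensional ι
  refine Metric.continuousOn_iff.2 fun c hc' ε hε => ?_
  obtain ⟨δ, hδ, h⟩ := Metric.continuous_iff.1 hc c ε hε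
  refine ⟨δ, hδ, fun c' hc'' hd => ?_⟩
  rw [dist_eq_norm, ep_iso hπ hr.le hrπ _ _ ((mem_Bg hr.le).1 hc'') ((mem_Bg hr.le).1 hc'),
    ← dist_eq_norm]
  exact h c' hd

/-- the constants -/
structure Cst (φ : G →* Mt n k) (ι : (Fin d → k) →ₗ[k] Mt n k) (π r r₀ : ℝ) : Prop where
  pi : Pi k π
  r0 : 0 < r
  rπ : r < π
  r1 : r < 1
  r₀0 : 0 < r₀
  r₀r : r₀ ≤ r
  ex : ∀ c, ‖ι c‖ ≤ r₀ → ∃ g, φ g = ep (ι c)

omit [ProperSpace k] [IsTopologicalGroup G] in
theorem Dat.cst {φ : G →* Mt n k} {ι : (Fin d → k) →ₗ[k] Mt n k} (hD : Dat φ ι) :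
    ∃ π r r₀, Cst φ ι π r r₀ := by
  obtain ⟨π, hπ⟩ := exists_pi (k := k)
  obtain ⟨ε, hε, hex⟩ := hD.ex
  have h0 : 0 < min (π / 2) (1 / 2) := lt_min (half_pos hπ.1) (by norm_num)
  refine ⟨π, min (π / 2) (1 / 2), min (min (π / 2) (1 / 2)) ε, hπ, h0,
    (min_le_left _ _).trans_lt (half_lt_self hπ.1), (min_le_right _ _).trans_lt (by norm_num),
    lt_min h0 hε, min_le_left _ _, fun c hc => hex c (hc.trans (min_le_right _ _))⟩

/-- the number of balls of radius `r` in the unit ball of the matrices -/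
theorem exists_cover (n : ℕ) (k : Type*) [NontriviallyNormedField k] [IsUltrametricDist k]
    [ProperSpace k] {r : ℝ} (hr : 0 < r) :
    ∃ t : Finset (Mt n k), ∀ A : Mt n k, ‖A‖ ≤ 1 → ∃ x ∈ t, ‖A - x‖ ≤ r := by
  obtain ⟨t, -, htf, ht⟩ := (isCompact_closedBall (0 : Mt n k) 1).finite_cover_balls hr
  refine ⟨htf.toFinset, fun A hA => ?_⟩
  have h1 := ht (show A ∈ Metric.closedBall (0 : Mt n k) 1 by simpa using hA)
  rw [Set.mem_iUnion₂] at h1
  obtain ⟨x, hx, hAx⟩ := h1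
  exact ⟨x, by simpa using hx, (mem_ball_iff_norm.1 hAx).le⟩

omit [CharZero k] [TopologicalSpace G] [IsTopologicalGroup G] in
/-- the index of the congruence subgroup of level `r` in an integral group -/
theorem idx_cong {φ : G →* Mt n k} (hr : 0 < r) (t : Finset (Mt n k))
    (ht : ∀ A : Mt n k, ‖A‖ ≤ 1 → ∃ x ∈ t, ‖A - x‖ ≤ r) (W : Subgroup G)
    (hW : ∀ g ∈ W, ‖φ g‖ ≤ 1) :
    (W ⊓ Ag φ r).relIndex W ≤ t.card ∧ (W ⊓ Ag φ r).relIndex W ≠ 0 := by
  classical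
  have h1 : ∀ g : G, ∃ x : t, g ∈ W → ‖φ g - x.1‖ ≤ r := by
    intro g
    by_cases hg : g ∈ W
    · obtain ⟨x, hx, h⟩ := ht (φ g) (hW g hg)
      exact ⟨⟨x, hx⟩, fun _ => h⟩
    · obtain ⟨x, hx, -⟩ := ht 0 (by simp)
      exact ⟨⟨x, hx⟩, fun h => absurd h hg⟩
  choose f hf using h1
  have h2 := idx_fin (W ⊓ Ag φ r) W f (by
    intro a ha b hb hab
    have h3 : ‖φ b - φ a‖ ≤ r := by
      have e : φ b - φ a = (φ b - (f b).1) + ((f a).1 - φ a) := by rw [hab]; abel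
      rw [e]
      refine (IsUltrametricDist.norm_add_le_max _ _).trans (max_le (hf b hb) ?_)
      rw [← norm_neg, neg_sub]; exact hf a ha
    have hab' : a⁻¹ * b ∈ W := W.mul_mem (W.inv_mem ha) hb
    exact ⟨hab', (mem_Ag hr.le).2 ⟨(dist1 φ (hW _ (W.inv_mem ha))).trans h3, hW _ hab',
      hW _ (W.inv_mem hab')⟩⟩)
  rw [Nat.card_eq_fintype_card, Fintype.card_coe] at h2
  exact h2

end Vale.Agent.P092.H736.Rp
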