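import Mathlib.Analysis.Normed.Algebra.Exponential
import Mathlib.Analysis.Normed.Group.Ultra
import Mathlib.Analysis.Normed.Ring.Ultra
import Mathlib.Analysis.Normed.Field.Ultra
import Mathlib.NumberTheory.Padics.PadicVal.Basic
import Mathlib.Topology.MetricSpace.Contracting

/-!
P092, project RP, block P9 (helper736): the exponential on a small ball of an ultrametric Banach
algebra over a field of characteristic zero is an isometry onto a ball around `1`.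
-/

set_option linter.all false

open Filter Topology Nat

namespace Vale.Agent.P092.H736.Rp

section field

variable {k : Type*} [NontriviallyNormedField k] [CharZero k] [IsUltrametricDist k]

theorem norm_nat_le (n : ℕ) : ‖(n : k)‖ ≤ 1 := IsUltrametricDist.norm_natCast_le_one k n

theorem norm_of_not_dvd {p : ℕ} (hp : p.Prime) (h : ‖(p : k)‖ < 1) {u : ℕ} (hu : ¬ p ∣ u) :
    ‖(u : k)‖ = 1 := by
  refine le_antisymm (norm_nat_le u) ?_
  by_contra hlt
  push Not at hlt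
  have hc : Nat.Coprime u p := (Nat.Prime.coprime_iff_not_dvd hp).2 hu |>.symm
  have hb := Nat.gcd_eq_gcd_ab u p
  rw [Nat.Coprime.gcd_eq_one hc] at hb
  have h1 : (1 : k) = (u : k) * ((u.gcdA p : ℤ) : k) + (p : k) * ((u.gcdB p : ℤ) : k) := by
    exact_mod_cast congrArg (Int.cast : ℤ → k) hb
  have h2 : ‖(1 : k)‖ < 1 := by
    rw [h1]
    refine (IsUltrametricDist.norm_add_le_max _ _).trans_lt (max_lt ?_ ?_)
    · rw [norm_mul]
      calc _ ≤ ‖(u : k)‖ * 1 :=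
            mul_le_mul_of_nonneg_left (IsUltrametricDist.norm_intCast_le_one k _) (norm_nonneg _)
        _ < 1 := by rw [mul_one]; exact hlt
    · rw [norm_mul]
      calc _ ≤ ‖(p : k)‖ * 1 :=
            mul_le_mul_of_nonneg_left (IsUltrametricDist.norm_intCast_le_one k _) (norm_nonneg _)
        _ < 1 := by rw [mul_one]; exact h
  rw [norm_one] at h2
  exact lt_irrefl _ h2

/-- factorials are not too small -/
theorem exists_pi : ∃ π : ℝ, 0 < π ∧ π ≤ 1 ∧ ∀ m : ℕ, π ^ m ≤ ‖(((m + 1)! : ℕ) : k)‖ := by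
  by_cases h : ∃ p : ℕ, p.Prime ∧ ‖(p : k)‖ < 1
  · obtain ⟨p, hp, h1⟩ := h
    haveI : Fact p.Prime := ⟨hp⟩
    have hp0 : 0 < ‖(p : k)‖ := norm_pos_iff.2 (by exact_mod_cast hp.ne_zero)
    refine ⟨‖(p : k)‖, hp0, h1.le, fun m => ?_⟩
    obtain ⟨u, hu⟩ : p ^ padicValNat p (m + 1)! ∣ (m + 1)! := pow_padicValNat_dvd
    have hud : ¬ p ∣ u := by
      rintro ⟨w, hw⟩
      have h2 : p ^ (padicValNat p (m + 1)! + 1) ∣ (m + 1)! := ⟨w, by
        conv_lhs => rw [hu, hw]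
        ring⟩
      exact pow_succ_padicValNat_not_dvd (Nat.factorial_ne_zero _) h2
    have hv : padicValNat p (m + 1)! ≤ m :=
      Nat.lt_succ_iff.1 (padicValNat_factorial_lt_of_ne_zero p (Nat.succ_ne_zero m))
    rw [hu]
    push_cast
    rw [norm_mul, norm_pow, norm_of_not_dvd hp h1 hud, mul_one]
    exact pow_le_pow_of_le_one hp0.le h1.le hv
  · push Not at h
    have h1 : ∀ n : ℕ, n ≠ 0 → ‖(n : k)‖ = 1 := by
      intro n
      induction n using Nat.strong_induction_on with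
      | _ n ih =>
        intro hn
        by_cases hn1 : n = 1
        · subst hn1; simp
        · obtain ⟨p, hp, w, rfl⟩ := Nat.exists_prime_and_dvd hn1
          have hw : w ≠ 0 := by rintro rfl; simp at hn
          have hlt : w < p * w := by
            have := hp.two_le
            nlinarith [Nat.pos_of_ne_zero hw]
          push_cast
          rw [norm_mul, ih w hlt hw, mul_one]
          exact le_antisymm (norm_nat_le p) (h p hp)
    refine ⟨1, one_pos, le_rfl, fun m => ?_⟩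
    rw [h1 _ (Nat.factorial_ne_zero _), one_pow]

end field

section alg

variable {k : Type*} [NontriviallyNormedField k] [CharZero k] [IsUltrametricDist k]
variable {𝔸 : Type*} [NormedRing 𝔸] [NormedAlgebra k 𝔸] [IsUltrametricDist 𝔸] [CompleteSpace 𝔸]

/-- `π` bounds the factorials from below -/
def Pi (k : Type*) [NontriviallyNormedField k] (π : ℝ) : Prop :=
  0 < π ∧ π ≤ 1 ∧ ∀ m : ℕ, π ^ m ≤ ‖(((m + 1)! : ℕ) : k)‖

variable {π r : ℝ}

omit [IsUltrametricDist 𝔸] [CompleteSpace 𝔸] in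
theorem norm_pow_le_pow (X : 𝔸) (m : ℕ) : ‖X ^ (m + 1)‖ ≤ ‖X‖ ^ (m + 1) :=
  norm_pow_le' X (Nat.succ_pos m)

omit [CompleteSpace 𝔸] in
theorem pow_sub (X Y : 𝔸) (hr : 0 ≤ r) (hX : ‖X‖ ≤ r) (hY : ‖Y‖ ≤ r) (m : ℕ) :
    ‖X ^ (m + 1) - Y ^ (m + 1)‖ ≤ r ^ m * ‖X - Y‖ := by
  induction m with
  | zero => simp
  | succ m ih =>
    have h1 : X ^ (m + 1 + 1) - Y ^ (m + 1 + 1) =
        X ^ (m + 1) * (X - Y) + (X ^ (m + 1) - Y ^ (m + 1)) * Y := by
      rw [pow_succ X (m + 1), pow_succ Y (m + 1)]; noncomm_ring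
    rw [h1]
    refine (IsUltrametricDist.norm_add_le_max _ _).trans (max_le ?_ ?_)
    · refine (norm_mul_le _ _).trans (mul_le_mul_of_nonneg_right ?_ (norm_nonneg _))
      exact (norm_pow_le_pow X m).trans (pow_le_pow_left₀ (norm_nonneg _) hX _)
    · refine (norm_mul_le _ _).trans ?_
      calc _ ≤ (r ^ m * ‖X - Y‖) * r :=
            mul_le_mul ih hY (norm_nonneg _) (by positivity)
        _ = r ^ (m + 1) * ‖X - Y‖ := by ring

theorem inv_fac (hπ : Pi k π) (m : ℕ) : ‖((((m + 1)! : ℕ) : k))⁻¹‖ ≤ (π⁻¹) ^ m := by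
  rw [norm_inv, inv_pow]
  exact inv_anti₀ (pow_pos hπ.1 m) (hπ.2.2 m)

omit [CompleteSpace 𝔸] in
/-- the terms of the difference of two exponentials -/
theorem term_sub (hπ : Pi k π) (X Y : 𝔸) (hr : 0 ≤ r) (hX : ‖X‖ ≤ r) (hY : ‖Y‖ ≤ r) (m : ℕ) :
    ‖((((m + 1)! : ℕ) : k))⁻¹ • X ^ (m + 1) - ((((m + 1)! : ℕ) : k))⁻¹ • Y ^ (m + 1)‖ ≤
      (r / π) ^ m * ‖X - Y‖ := by
  rw [← smul_sub, norm_smul]
  calc _ ≤ (π⁻¹) ^ m * (r ^ m * ‖X - Y‖) :=
        mul_le_mul (inv_fac hπ m) (pow_sub X Y hr hX hY m) (norm_nonneg _)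
          (pow_nonneg (inv_nonneg.2 hπ.1.le) m)
    _ = (r / π) ^ m * ‖X - Y‖ := by rw [div_pow, inv_pow]; ring

theorem norm_tsum_le {f : ℕ → 𝔸} (hf : Summable f) {C : ℝ} (hC : 0 ≤ C) (h : ∀ i, ‖f i‖ ≤ C) :
    ‖∑' i, f i‖ ≤ C :=
  le_of_tendsto hf.hasSum.norm (Eventually.of_forall fun s =>
    IsUltrametricDist.norm_sum_le_of_forall_le_of_nonneg hC (fun i _ => h i))

theorem summ (hπ : Pi k π) (X : 𝔸) (hX : ‖X‖ < π) :
    Summable fun m : ℕ => (((m ! : ℕ) : k))⁻¹ • X ^ m := by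
  rw [← summable_nat_add_iff 1]
  have hq : ‖X‖ / π < 1 := (div_lt_one hπ.1).2 hX
  refine Summable.of_norm_bounded (g := fun m => (‖X‖ / π) ^ m * ‖X‖)
    ((summable_geometric_of_lt_one (div_nonneg (norm_nonneg _) hπ.1.le) hq).mul_right _) ?_
  intro m
  have := term_sub hπ X 0 (norm_nonneg X) le_rfl (by simpa using norm_nonneg X) m
  simpa using this

omit [IsUltrametricDist k] [IsUltrametricDist 𝔸] [CompleteSpace 𝔸] in
theorem exp_def (X : 𝔸) : NormedSpace.exp X = ∑' m : ℕ, (((m ! : ℕ) : k))⁻¹ • X ^ m := by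
  rw [NormedSpace.exp_eq_tsum k]

/-- **isometry** -/
theorem exp_close (hπ : Pi k π) (hr : 0 ≤ r) (hrπ : r < π) (X Y : 𝔸) (hX : ‖X‖ ≤ r)
    (hY : ‖Y‖ ≤ r) :
    ‖NormedSpace.exp X - NormedSpace.exp Y - (X - Y)‖ ≤ (r / π) * ‖X - Y‖ := by
  have sX := summ hπ X (hX.trans_lt hrπ)
  have sY := summ hπ Y (hY.trans_lt hrπ)
  have hq0 : 0 ≤ r / π := div_nonneg hr hπ.1.le
  have hq : r / π < 1 := (div_lt_one hπ.1).2 hrπ
  have h1 : NormedSpace.exp X - NormedSpace.exp Y - (X - Y) =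
      ∑' m : ℕ, ((((m + 2)! : ℕ) : k)⁻¹ • X ^ (m + 2) - (((m + 2)! : ℕ) : k)⁻¹ • Y ^ (m + 2)) := by
    rw [exp_def (k := k) X, exp_def (k := k) Y, ← sX.sum_add_tsum_nat_add 2,
      ← sY.sum_add_tsum_nat_add 2,
      Summable.tsum_sub ((summable_nat_add_iff 2).2 sX) ((summable_nat_add_iff 2).2 sY)]
    simp [Finset.sum_range_succ]
    abel
  rw [h1]
  refine norm_tsum_le (((summable_nat_add_iff 2).2 sX).sub ((summable_nat_add_iff 2).2 sY))
    (mul_nonneg hq0 (norm_nonneg _)) fun m => ?_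
  refine (term_sub hπ X Y hr hX hY (m + 1)).trans
    (mul_le_mul_of_nonneg_right ?_ (norm_nonneg _))
  rw [pow_succ]
  calc _ ≤ 1 * (r / π) := mul_le_mul_of_nonneg_right (pow_le_one₀ hq0 hq.le) hq0
    _ = r / π := one_mul _

theorem exp_iso (hπ : Pi k π) (hr : 0 ≤ r) (hrπ : r < π) (X Y : 𝔸) (hX : ‖X‖ ≤ r)
    (hY : ‖Y‖ ≤ r) : ‖NormedSpace.exp X - NormedSpace.exp Y‖ = ‖X - Y‖ := by
  by_cases hXY : X = Y
  · subst hXY; simp
  have h0 : 0 < ‖X - Y‖ := norm_pos_iff.2 (sub_ne_zero.2 hXY)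
  have hq : r / π < 1 := (div_lt_one hπ.1).2 hrπ
  have h1 := exp_close hπ hr hrπ X Y hX hY
  have h2 : ‖NormedSpace.exp X - NormedSpace.exp Y - (X - Y)‖ < ‖X - Y‖ :=
    h1.trans_lt (by nlinarith)
  have h3 : NormedSpace.exp X - NormedSpace.exp Y =
      (NormedSpace.exp X - NormedSpace.exp Y - (X - Y)) + (X - Y) := by abel
  rw [h3, IsUltrametricDist.norm_add_eq_max_of_norm_ne_norm h2.ne, max_eq_right h2.le]

omit [IsUltrametricDist 𝔸] [CompleteSpace 𝔸] [CharZero k] [IsUltrametricDist k] in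
theorem exp_zero' [CharZero k] : NormedSpace.exp (0 : 𝔸) = 1 := by
  letI : Algebra ℚ 𝔸 := Algebra.compHom 𝔸 (algebraMap ℚ k)
  exact NormedSpace.exp_zero

theorem exp_sub_one (hπ : Pi k π) (X : 𝔸) (hX : ‖X‖ < π) :
    ‖NormedSpace.exp X - 1‖ = ‖X‖ := by
  have h := exp_iso hπ (norm_nonneg X) hX X 0 le_rfl (by simpa using norm_nonneg X)
  rw [exp_zero' (k := k), sub_zero] at h
  exact h

/-- **surjectivity** -/
theorem exp_surj (hπ : Pi k π) (hrπ : r < π) (g : 𝔸) (hg : ‖g - 1‖ ≤ r) :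
    ∃ X : 𝔸, ‖X‖ ≤ r ∧ NormedSpace.exp X = g := by
  have hr : 0 ≤ r := (norm_nonneg _).trans hg
  have hq0 : 0 ≤ r / π := div_nonneg hr hπ.1.le
  have hq : r / π < 1 := (div_lt_one hπ.1).2 hrπ
  set f : 𝔸 → 𝔸 := fun X => X + g - NormedSpace.exp X with hf
  have hmap : Set.MapsTo f (Metric.closedBall (0 : 𝔸) r) (Metric.closedBall (0 : 𝔸) r) := by
    intro X hX
    rw [mem_closedBall_zero_iff] at hX ⊢
    have h1 := exp_close hπ hr hrπ X 0 hX (by simpa using hr)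
    rw [exp_zero' (k := k), sub_zero] at h1
    have h2 : f X = (g - 1) - (NormedSpace.exp X - 1 - X) := by simp only [hf]; abel
    rw [h2, sub_eq_add_neg]
    refine (IsUltrametricDist.norm_add_le_max _ _).trans (max_le hg ?_)
    rw [norm_neg]
    exact h1.trans ((mul_le_mul hq.le hX (norm_nonneg _) zero_le_one).trans (by rw [one_mul]))
  have hc : ContractingWith (Real.toNNReal (r / π)) (hmap.restrict f _ _) := by
    refine ⟨by rw [← NNReal.coe_lt_coe, Real.coe_toNNReal _ hq0]; exact hq,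
      LipschitzWith.of_dist_le_mul ?_⟩
    rintro ⟨X, hX⟩ ⟨Y, hY⟩
    rw [mem_closedBall_zero_iff] at hX hY
    rw [Subtype.dist_eq, Subtype.dist_eq, dist_eq_norm, dist_eq_norm]
    rw [Real.coe_toNNReal _ hq0]
    show ‖f X - f Y‖ ≤ r / π * ‖X - Y‖
    have h1 := exp_close hπ hr hrπ X Y hX hY
    have h2 : f X - f Y = -(NormedSpace.exp X - NormedSpace.exp Y - (X - Y)) := by
      simp only [hf]; abel
    rw [h2, norm_neg]
    exact h1
  obtain ⟨X, hX, hfix, -⟩ := hc.exists_fixedPoint' (Metric.isClosed_closedBall.isComplete) hmap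
    (x := 0) (by simpa using hr) (edist_ne_top _ _)
  refine ⟨X, by simpa using hX, ?_⟩
  have h1 : X + g - NormedSpace.exp X = X := hfix
  have h2 : NormedSpace.exp X = g := by
    have h3 : g - NormedSpace.exp X = 0 := by
      have : X + (g - NormedSpace.exp X) = X + 0 := by rw [add_zero, ← add_sub_assoc]; exact h1
      exact add_left_cancel this
    exact (sub_eq_zero.1 h3).symm
  exact h2

omit [IsUltrametricDist k] [IsUltrametricDist 𝔸] [CompleteSpace 𝔸] [CharZero k] in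
theorem radius (hπ : Pi k π) : ENNReal.ofReal π ≤ (NormedSpace.expSeries k 𝔸).radius := by
  refine FormalMultilinearSeries.le_radius_of_bound _ (max 1 ‖(1 : 𝔸)‖) fun n => ?_
  have h1 : ‖NormedSpace.expSeries k 𝔸 n‖ ≤ ‖((n ! : ℕ) : k)⁻¹‖ * max 1 ‖(1 : 𝔸)‖ := by
    rw [NormedSpace.expSeries_eq_ofScalars, FormalMultilinearSeries.ofScalars_norm_eq_mul]
    exact mul_le_mul_of_nonneg_left (ContinuousMultilinearMap.norm_mkPiAlgebraFin_le)
      (norm_nonneg _)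
  have h3 : ‖((n ! : ℕ) : k)⁻¹‖ * π ^ n ≤ 1 := by
    rcases n with _ | n
    · simp
    · have h4 := hπ.2.2 n
      have h5 : 0 < ‖(((n + 1)! : ℕ) : k)‖ := (pow_pos hπ.1 n).trans_le h4
      rw [norm_inv, inv_mul_le_iff₀ h5, mul_one]
      refine le_trans ?_ h4
      rw [pow_succ]
      exact mul_le_of_le_one_right (pow_nonneg hπ.1.le n) hπ.2.1
  rw [Real.coe_toNNReal _ hπ.1.le]
  calc _ ≤ (‖((n ! : ℕ) : k)⁻¹‖ * max 1 ‖(1 : 𝔸)‖) * π ^ n :=
        mul_le_mul_of_nonneg_right h1 (pow_nonneg hπ.1.le n)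
    _ = (‖((n ! : ℕ) : k)⁻¹‖ * π ^ n) * max 1 ‖(1 : 𝔸)‖ := by ring
    _ ≤ 1 * max 1 ‖(1 : 𝔸)‖ := mul_le_mul_of_nonneg_right h3 (by positivity)
    _ = _ := one_mul _

theorem mem_eball (hπ : Pi k π) {X : 𝔸} (hX : ‖X‖ < π) :
    X ∈ Metric.eball (0 : 𝔸) (NormedSpace.expSeries k 𝔸).radius := by
  rw [Metric.mem_eball, edist_zero_right]
  refine lt_of_lt_of_le ?_ (radius hπ)
  rw [← ofReal_norm_eq_enorm]
  exact (ENNReal.ofReal_lt_ofReal_iff hπ.1).2 hX

theorem exp_add (hπ : Pi k π) {X Y : 𝔸} (h : Commute X Y) (hX : ‖X‖ < π) (hY : ‖Y‖ < π) :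
    NormedSpace.exp (X + Y) = NormedSpace.exp X * NormedSpace.exp Y :=
  NormedSpace.exp_add_of_commute_of_mem_ball (𝕂 := k) h (mem_eball hπ hX) (mem_eball hπ hY)

theorem norm_nsmul_le' (m : ℕ) (X : 𝔸) : ‖(m : k) • X‖ ≤ ‖X‖ := by
  rw [norm_smul]
  exact mul_le_of_le_one_left (norm_nonneg _) (norm_nat_le m)

theorem exp_nsmul (hπ : Pi k π) {X : 𝔸} (hX : ‖X‖ < π) (m : ℕ) :
    NormedSpace.exp ((m : k) • X) = NormedSpace.exp X ^ m := by
  induction m with
  | zero => simp [exp_zero' (k := k)]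
  | succ m ih =>
    push_cast
    rw [add_smul, one_smul, exp_add hπ (Commute.smul_left (Commute.refl X) _)
      ((norm_nsmul_le' m X).trans_lt hX) hX, ih, pow_succ]

end alg

end Vale.Agent.P092.H736.Rp
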