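import Vale.Agent.P092.H736.RpBd

/-!
P092, project RP, block P9 (helper736): the volume bound (field `vol` of `TdV`).
-/

set_option linter.all false

open Filter Topology MeasureTheory MeasureTheory.Measure Matrix
open scoped NNReal ENNReal

namespace Vale.Agent.P092.H736.Rp

variable {k : Type*} [NontriviallyNormedField k] [IsUltrametricDist k] [ProperSpace k] [CharZero k]
  {n d : ℕ} {G : Type*} [Group G]

attribute [local instance] mnr mna mu mc mp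

variable [TopologicalSpace G] [IsTopologicalGroup G] {π r r₀ : ℝ}
  {φ : G →* Mt n k} {ι : (Fin d → k) →ₗ[k] Mt n k}

omit [CharZero k] [IsTopologicalGroup G] in
theorem exists_h (hφ : Continuous φ) {W : Subgroup G} (hW : IsCompact (W : Set G)) :
    ∃ h : (Mt n k)ˣ, ∀ g ∈ W, ‖cjφ h φ g‖ ≤ 1 := by
  have h1 : IsCompact (φ '' (W : Set G)) := hW.image hφ
  obtain ⟨R, hR⟩ := h1.isBounded.exists_norm_le
  exact exists_lattice φ W fun g hg => hR _ ⟨g, hg, rfl⟩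

omit [ProperSpace k] [CharZero k] [TopologicalSpace G] [IsTopologicalGroup G] in
theorem cjφ_one (φ : G →* Mt n k) : cjφ (1 : (Mt n k)ˣ) φ = φ := by
  ext1 g
  rw [cjφ_apply, cjl_apply, Units.val_one, one_mul, inv_one, Units.val_one, mul_one]

theorem relIndex_ne {U V : Subgroup G} (hU : IsOpen (U : Set G)) (hV : IsCompact (V : Set G)) :
    U.relIndex V ≠ 0 := by
  haveI : CompactSpace V := isCompact_iff_compactSpace.1 hV
  have h1 : IsOpen ((U.subgroupOf V : Subgroup V) : Set V) := hU.preimage continuous_subtype_val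
  haveI : Finite (V ⧸ U.subgroupOf V) := Subgroup.quotient_finite_of_isOpen _ h1
  exact Subgroup.index_ne_zero_of_finite

/-- the main estimate, for a small congruence subgroup -/
theorem small_bd (hD : Dat φ ι) (hC : Cst φ ι π r r₀) :
    ∃ c : ℕ, ∀ W : Subgroup G, IsOpen (W : Set G) → IsCompact (W : Set G) →
      ∀ U : Subgroup G, IsOpen (U : Set G) → ∃ s > 0, Ag φ s ≤ U ∧ Ag φ s ≤ W ∧
        (Ag φ s).relIndex W ≤ c * (Ag φ s).relIndex (Ag φ r₀) := by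
  letI : MeasurableSpace k := borel k
  haveI : BorelSpace k := ⟨rfl⟩
  set μ : Measure (Fin d → k) := addHaar with hμ
  obtain ⟨t, ht⟩ := exists_cover n k hC.r0
  obtain ⟨C, hCtop, hvb⟩ := vb (gram ι) hD.nd μ
  have hφc : Continuous φ := hD.emb.continuous
  set v := μ (Bg ι r₀ : Set (Fin d → k)) with hv
  have hv0 : v ≠ 0 := (Bg_open ι hC.r₀0).measure_pos μ ⟨0, (Bg ι r₀).zero_mem⟩ |>.ne'
  have hvt : v ≠ ∞ := (Bg_compact hD.lg.inj hC.r₀0.le).measure_lt_top.ne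
  obtain ⟨c, hc⟩ := ENNReal.exists_nat_gt (r := (t.card : ℝ≥0∞) * C / v)
    (ENNReal.div_ne_top (ENNReal.mul_ne_top (ENNReal.natCast_ne_top _) hCtop) hv0)
  refine ⟨c, fun W hW hWc U hU => ?_⟩
  obtain ⟨h, hh⟩ := exists_h hφc hWc
  have hφ'c : Continuous (cjφ h φ) := (cjl h).continuous.comp hφc
  set K := ‖(h : Mt n k)‖ * ‖((h⁻¹ : (Mt n k)ˣ) : Mt n k)‖ with hK
  have hK0 : 0 ≤ K := by positivity
  -- `s₁`
  obtain ⟨ε₁, hε₁, hA1⟩ := exists_Ag_le hD.emb.isInducing h hW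
  set s₁ := min (min r ε₁) (r / (K + 1)) with hs₁
  have hs₁0 : 0 < s₁ := lt_min (lt_min hC.r0 hε₁) (div_pos hC.r0 (by positivity))
  have hs₁r : s₁ ≤ r := (min_le_left _ _).trans (min_le_left _ _)
  have hA1' : Ag (cjφ h φ) s₁ ≤ W := hA1 s₁ hs₁0 ((min_le_left _ _).trans (min_le_right _ _))
  have hKs : K * s₁ ≤ r := by
    have h1 : s₁ ≤ r / (K + 1) := min_le_right _ _
    rw [le_div_iff₀ (by positivity)] at h1
    nlinarith
  -- `s₂`
  have hU2 : IsOpen ((U ⊓ Ag (cjφ h φ) s₁ : Subgroup G) : Set G) := hU.inter (Ag_open hφ'c hs₁0)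
  obtain ⟨ε₂, hε₂, hA2⟩ := exists_Ag_le hD.emb.isInducing 1 hU2
  rw [cjφ_one] at hA2
  set s₂ := min (min r₀ ε₂) (s₁ / (K + 1)) with hs₂
  have hs₂0 : 0 < s₂ := lt_min (lt_min hC.r₀0 hε₂) (div_pos hs₁0 (by positivity))
  have hs₂r : s₂ ≤ r₀ := (min_le_left _ _).trans (min_le_left _ _)
  have hA2' : Ag φ s₂ ≤ U ⊓ Ag (cjφ h φ) s₁ :=
    hA2 s₂ hs₂0 ((min_le_left _ _).trans (min_le_right _ _))
  have hKs2 : K * s₂ ≤ s₁ := by
    have h1 : s₂ ≤ s₁ / (K + 1) := min_le_right _ _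
    rw [le_div_iff₀ (by positivity)] at h1
    nlinarith
  have hB2 : Bg ι s₂ ≤ Bg (cjι h ι) s₁ := by
    intro c hc
    rw [mem_Bg hs₂0.le] at hc
    rw [mem_Bg hs₁0.le, cjι_apply]
    exact (cjl_le h _).trans ((mul_le_mul_of_nonneg_left hc hK0).trans hKs2)
  have hB1 : Bg (cjι h ι) s₁ ≤ Bg (cjι h ι) r := by
    intro c hc
    rw [mem_Bg hs₁0.le] at hc
    rw [mem_Bg hC.r0.le]
    exact hc.trans hs₁r
  have hB3 : Bg ι s₂ ≤ Bg ι r₀ := by
    intro c hc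
    rw [mem_Bg hs₂0.le] at hc
    rw [mem_Bg hC.r₀0.le]
    exact hc.trans hs₂r
  have hinj' := (hD.lg.cj h).inj
  refine ⟨s₂, hs₂0, hA2'.trans inf_le_left, (hA2'.trans inf_le_right).trans hA1', ?_⟩
  -- the group side
  have n1 : (Bg ι s₂).relIndex (Bg (cjι h ι) s₁) ≠ 0 :=
    add_ne_zero (Bg_open ι hs₂0) (Bg_compact hinj' hs₁0.le)
  have n2 : (Bg (cjι h ι) s₁).relIndex (Bg (cjι h ι) r) ≠ 0 :=
    add_ne_zero (Bg_open _ hs₁0) (Bg_compact hinj' hC.r0.le)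
  have i1 := hD.lg.idx2 hC.pi hC.r0.le hC.rπ hC.r1 h hs₁0.le hs₁r hKs hs₂0.le n1
  have i2 := (hD.lg.cj h).idx1 hC.pi hC.r0.le hC.rπ hC.r1 hs₁0.le n2
  have i3 := idx_cong (φ := cjφ h φ) hC.r0 t ht W hh
  have hWe : Ag (cjφ h φ) s₁ ≤ W ⊓ Ag (cjφ h φ) r := le_inf hA1' (Ag_mono hs₁0.le hs₁r)
  have j1 : (Ag φ s₂).relIndex W ≤
      ((Bg ι s₂).relIndex (Bg (cjι h ι) s₁) * (Bg (cjι h ι) s₁).relIndex (Bg (cjι h ι) r)) *
        t.card := by
    rw [← Subgroup.relIndex_mul_relIndex (Ag φ s₂) (W ⊓ Ag (cjφ h φ) r) W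
      ((hA2'.trans inf_le_right).trans hWe) inf_le_left,
      ← Subgroup.relIndex_mul_relIndex (Ag φ s₂) (Ag (cjφ h φ) s₁) (W ⊓ Ag (cjφ h φ) r)
      (hA2'.trans inf_le_right) hWe]
    have i4 : (Ag (cjφ h φ) s₁).relIndex (W ⊓ Ag (cjφ h φ) r) ≤
        (Ag (cjφ h φ) s₁).relIndex (Ag (cjφ h φ) r) :=
      Subgroup.relIndex_le_of_le_right inf_le_right i2.2
    exact Nat.mul_le_mul (Nat.mul_le_mul i1.1 (i4.trans i2.1)) i3.1
  rw [AddSubgroup.relIndex_mul_relIndex _ _ _ hB2 hB1] at j1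
  -- volumes
  have v1 := add_index (μ := μ) (Bg_open ι hs₂0) (Bg_open (cjι h ι) hC.r0)
    (Bg_compact hinj' hC.r0.le) (hB2.trans hB1)
  have v2 := add_index (μ := μ) (Bg_open ι hs₂0) (Bg_open ι hC.r₀0)
    (Bg_compact hD.lg.inj hC.r₀0.le) hB3
  have v3 : μ (Bg (cjι h ι) r : Set (Fin d → k)) ≤ C :=
    hvb _ (Bg_compact hinj' hC.r0.le) (Bg_nhds _ hC.r0)
      fun x hx y hy => gram_le h hC.r0.le hC.r1.le hx hy
  have hK0c := K0_compact hD hC.pi hC.r₀0 (hC.r₀r.trans_lt hC.rπ) (hC.r₀r.trans_lt hC.r1) hC.ex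
  have i5 := idx3 (φ := φ) (ι := ι) hC.pi hC.r₀0.le (hC.r₀r.trans_lt hC.rπ)
    (hC.r₀r.trans_lt hC.r1) hC.ex hs₂0.le (relIndex_ne (Ag_open hφc hs₂0) hK0c)
  -- combine
  set X := (Bg ι s₂).relIndex (Bg (cjι h ι) r) with hX
  set Y := (Bg ι s₂).relIndex (Bg ι r₀) with hY
  have m1 : ((Ag φ s₂).relIndex W : ℝ≥0∞) * v ≤ (t.card : ℝ≥0∞) * C * Y := by
    calc ((Ag φ s₂).relIndex W : ℝ≥0∞) * v
        ≤ ((X * t.card : ℕ) : ℝ≥0∞) * v :=
          mul_le_mul_left (by exact_mod_cast j1) _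
      _ = ((X * t.card : ℕ) : ℝ≥0∞) * (Y * μ (Bg ι s₂ : Set (Fin d → k))) := by rw [← v2]
      _ = (t.card : ℝ≥0∞) * (X * μ (Bg ι s₂ : Set (Fin d → k))) * Y := by
          push_cast; ring
      _ = (t.card : ℝ≥0∞) * μ (Bg (cjι h ι) r : Set (Fin d → k)) * Y := by rw [← v1]
      _ ≤ (t.card : ℝ≥0∞) * C * Y :=
          mul_le_mul_left (mul_le_mul_right v3 _) _
  have m2 : ((Ag φ s₂).relIndex W : ℝ≥0∞) ≤ (c : ℝ≥0∞) * Y := by
    calc ((Ag φ s₂).relIndex W : ℝ≥0∞)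
        ≤ (t.card : ℝ≥0∞) * C * Y / v := (ENNReal.le_div_iff_mul_le (Or.inl hv0) (Or.inl hvt)).2 m1
      _ = (t.card : ℝ≥0∞) * C / v * Y := by
          rw [div_eq_mul_inv, div_eq_mul_inv]; ring
      _ ≤ (c : ℝ≥0∞) * Y := mul_le_mul_left hc.le _
  have m3 : (Ag φ s₂).relIndex W ≤ c * Y := by exact_mod_cast m2
  exact m3.trans (Nat.mul_le_mul_left c i5)

/-- **[RP-P9], bound**: the field `vol` of `TdV`. -/
theorem vol_bd (hD : Dat φ ι) : ∃ (K : Subgroup G) (c : ℕ), IsOpen (K : Set G) ∧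
    IsCompact (K : Set G) ∧ ∀ U W : Subgroup G, IsOpen (U : Set G) → IsOpen (W : Set G) →
      IsCompact (W : Set G) → U ≤ W → U ≤ K → U.relIndex W ≤ c * U.relIndex K := by
  obtain ⟨π, r, r₀, hC⟩ := hD.cst
  obtain ⟨c, hc⟩ := small_bd hD hC
  have hK0c := K0_compact hD hC.pi hC.r₀0 (hC.r₀r.trans_lt hC.rπ) (hC.r₀r.trans_lt hC.r1) hC.ex
  refine ⟨Ag φ r₀, c, Ag_open hD.emb.continuous hC.r₀0, hK0c, fun U W hU hW hWc hUW hUK => ?_⟩
  obtain ⟨s, hs, hsU, hsW, h⟩ := hc W hW hWc U hU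
  rw [← Subgroup.relIndex_mul_relIndex (Ag φ s) U W hsU hUW,
    ← Subgroup.relIndex_mul_relIndex (Ag φ s) U (Ag φ r₀) hsU hUK] at h
  have h0 : 0 < (Ag φ s).relIndex U := by
    refine Nat.pos_of_ne_zero (relIndex_ne (Ag_open hD.emb.continuous hs) ?_)
    exact hWc.of_isClosed_subset (Subgroup.isClosed_of_isOpen _ hU) hUW
  refine Nat.le_of_mul_le_mul_left ?_ h0
  calc _ ≤ _ := h
    _ = _ := by ring

end Vale.Agent.P092.H736.Rp
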