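import Vale.Agent.P092.H736.RpMat

/-!
P092, project RP, block P9 (helper736): congruence subgroups and their logarithms.
-/

set_option linter.all false

open Filter Topology MeasureTheory MeasureTheory.Measure Matrix
open scoped NNReal ENNReal

namespace Vale.Agent.P092.H736.Rp

variable {k : Type*} [NontriviallyNormedField k] [IsUltrametricDist k] {n d : ℕ}
  {G : Type*} [Group G]

attribute [local instance] mnr mna mu mc mp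

theorem norm_one_of {A : Mt n k} {s : ℝ} (hs : s ≤ 1) (h : ‖A - 1‖ ≤ s) : ‖A‖ ≤ 1 := by
  have h1 : A = (A - 1) + 1 := by abel
  rw [h1]
  exact (IsUltrametricDist.norm_add_le_max _ _).trans (max_le (h.trans hs) one_le)

theorem inv_one_of (φ : G →* Mt n k) {g : G} {s : ℝ} (hs : s < 1) (h : ‖φ g - 1‖ ≤ s) :
    ‖φ g⁻¹‖ ≤ 1 := by
  by_contra hc
  push Not at hc
  have h1 : φ g⁻¹ * φ g = 1 := by rw [← map_mul, inv_mul_cancel, map_one]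
  have h2 : φ g⁻¹ = 1 - φ g⁻¹ * (φ g - 1) := by rw [mul_sub, h1, mul_one]; abel
  have h3 : ‖φ g⁻¹ * (φ g - 1)‖ < ‖φ g⁻¹‖ := by
    refine (norm_mul_le _ _).trans_lt ?_
    have h4 : ‖φ g⁻¹‖ * ‖φ g - 1‖ ≤ ‖φ g⁻¹‖ * s := mul_le_mul_of_nonneg_left h (norm_nonneg _)
    have h5 : 0 < ‖φ g⁻¹‖ := zero_lt_one.trans hc
    nlinarith
  have h4 : ‖φ g⁻¹‖ ≤ max ‖(1 : Mt n k)‖ ‖φ g⁻¹ * (φ g - 1)‖ := by
    nth_rewrite 1 [h2]
    rw [sub_eq_add_neg, ← norm_neg (φ g⁻¹ * (φ g - 1))]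
    exact IsUltrametricDist.norm_add_le_max _ _
  rcases le_max_iff.1 h4 with h5 | h5
  · exact absurd (h5.trans one_le) (not_le.2 hc)
  · exact absurd h5 (not_le.2 h3)

/-- congruence subgroup -/
def Ag (φ : G →* Mt n k) (s : ℝ) : Subgroup G where
  carrier := {g | ‖φ g - 1‖ ≤ |s| ∧ ‖φ g‖ ≤ 1 ∧ ‖φ g⁻¹‖ ≤ 1}
  one_mem' := by
    refine ⟨?_, ?_, ?_⟩
    · rw [map_one, sub_self, norm_zero]; exact abs_nonneg s
    · rw [map_one]; exact one_le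
    · rw [inv_one, map_one]; exact one_le
  mul_mem' := by
    rintro a b ⟨ha, ha1, ha2⟩ ⟨hb, hb1, hb2⟩
    refine ⟨?_, ?_, ?_⟩
    · have h1 : φ (a * b) - 1 = (φ a - 1) * φ b + (φ b - 1) := by
        rw [map_mul, sub_mul, one_mul]; abel
      rw [h1]
      refine (IsUltrametricDist.norm_add_le_max _ _).trans (max_le ?_ hb)
      refine (norm_mul_le _ _).trans ?_
      calc _ ≤ |s| * 1 := mul_le_mul ha hb1 (norm_nonneg _) (abs_nonneg _)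
        _ = _ := mul_one _
    · rw [map_mul]
      exact (norm_mul_le _ _).trans (mul_le_one₀ ha1 (norm_nonneg _) hb1)
    · rw [_root_.mul_inv_rev, map_mul]
      exact (norm_mul_le _ _).trans (mul_le_one₀ hb2 (norm_nonneg _) ha2)
  inv_mem' := by
    rintro a ⟨ha, ha1, ha2⟩
    refine ⟨?_, ha2, by rw [inv_inv]; exact ha1⟩
    have h1 : φ a⁻¹ * φ a = 1 := by rw [← map_mul, inv_mul_cancel, map_one]
    have h2 : φ a⁻¹ - 1 = -(φ a⁻¹ * (φ a - 1)) := by rw [mul_sub, h1, mul_one]; abel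
    rw [h2, norm_neg]
    refine (norm_mul_le _ _).trans ?_
    calc _ ≤ 1 * |s| := mul_le_mul ha2 ha (norm_nonneg _) zero_le_one
      _ = _ := one_mul _

theorem mem_Ag {φ : G →* Mt n k} {s : ℝ} (hs : 0 ≤ s) {g : G} :
    g ∈ Ag φ s ↔ ‖φ g - 1‖ ≤ s ∧ ‖φ g‖ ≤ 1 ∧ ‖φ g⁻¹‖ ≤ 1 := by
  show ‖φ g - 1‖ ≤ |s| ∧ _ ↔ _
  rw [abs_of_nonneg hs]

theorem mem_Ag' {φ : G →* Mt n k} {s : ℝ} (hs : 0 ≤ s) (hs1 : s < 1) {g : G} :
    g ∈ Ag φ s ↔ ‖φ g - 1‖ ≤ s := by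
  rw [mem_Ag hs]
  exact ⟨fun h => h.1, fun h => ⟨h, norm_one_of hs1.le h, inv_one_of φ hs1 h⟩⟩

theorem Ag_mono {φ : G →* Mt n k} {s t : ℝ} (hs : 0 ≤ s) (h : s ≤ t) : Ag φ s ≤ Ag φ t := by
  intro g hg
  rw [mem_Ag hs] at hg
  rw [mem_Ag (hs.trans h)]
  exact ⟨hg.1.trans h, hg.2⟩

/-- lattices in the Lie algebra -/
def Bg (ι : (Fin d → k) →ₗ[k] Mt n k) (s : ℝ) : AddSubgroup (Fin d → k) where
  carrier := {c | ‖ι c‖ ≤ |s|}
  zero_mem' := by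
    show ‖ι 0‖ ≤ |s|
    rw [map_zero, norm_zero]; exact abs_nonneg s
  add_mem' := by
    intro a b ha hb
    show ‖ι (a + b)‖ ≤ |s|
    rw [map_add]
    exact (IsUltrametricDist.norm_add_le_max _ _).trans (max_le ha hb)
  neg_mem' := by
    intro a ha
    show ‖ι (-a)‖ ≤ |s|
    rw [map_neg, norm_neg]; exact ha

theorem mem_Bg {ι : (Fin d → k) →ₗ[k] Mt n k} {s : ℝ} (hs : 0 ≤ s) {c : Fin d → k} :
    c ∈ Bg ι s ↔ ‖ι c‖ ≤ s := by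
  show ‖ι c‖ ≤ |s| ↔ _
  rw [abs_of_nonneg hs]

/-- the Lie algebra `ι` contains the logarithms of `G` -/
structure LG (φ : G →* Mt n k) (ι : (Fin d → k) →ₗ[k] Mt n k) : Prop where
  inj : Function.Injective ι
  log : ∀ X : Mt n k, (∀ m : ℕ, ∃ g : G, φ g = ep ((m : k) • X)) → ∃ c, ι c = X

/-- conjugate representation -/
noncomputable def cjφ (h : (Mt n k)ˣ) (φ : G →* Mt n k) : G →* Mt n k where
  toFun g := cjl h (φ g)
  map_one' := by rw [map_one, cjl_one]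
  map_mul' a b := by rw [map_mul, cjl_mul]

/-- conjugate Lie algebra -/
noncomputable def cjι (h : (Mt n k)ˣ) (ι : (Fin d → k) →ₗ[k] Mt n k) :
    (Fin d → k) →ₗ[k] Mt n k where
  toFun c := cjl h (ι c)
  map_add' a b := by rw [map_add, map_add]
  map_smul' a b := by rw [map_smul, map_smul]; rfl

theorem cjφ_apply (h : (Mt n k)ˣ) (φ : G →* Mt n k) (g : G) : cjφ h φ g = cjl h (φ g) := rfl

theorem cjι_apply (h : (Mt n k)ˣ) (ι : (Fin d → k) →ₗ[k] Mt n k) (c) :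
    cjι h ι c = cjl h (ι c) := rfl

variable [CharZero k]

theorem LG.cj {φ : G →* Mt n k} {ι : (Fin d → k) →ₗ[k] Mt n k} (hL : LG φ ι) (h : (Mt n k)ˣ) :
    LG (cjφ h φ) (cjι h ι) := by
  refine ⟨fun a b hab => hL.inj ((cjl h).injective hab), fun X hX => ?_⟩
  obtain ⟨c, hc⟩ := hL.log ((cjl h).symm X) fun m => by
    obtain ⟨g, hg⟩ := hX m
    refine ⟨g, (cjl h).injective ?_⟩
    rw [cjl_ep, map_smul, ContinuousLinearEquiv.apply_symm_apply]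
    exact hg
  exact ⟨c, by rw [cjι_apply, hc, ContinuousLinearEquiv.apply_symm_apply]⟩

variable [CompleteSpace k] {π r : ℝ}

theorem LG.exists_log {φ : G →* Mt n k} {ι : (Fin d → k) →ₗ[k] Mt n k} (hL : LG φ ι)
    (hπ : Pi k π) (hrπ : r < π) {g : G} (hg : ‖φ g - 1‖ ≤ r) :
    ∃ c, ‖ι c‖ ≤ r ∧ ep (ι c) = φ g := by
  obtain ⟨X, hX, hXg⟩ := ep_surj hπ hrπ (φ g) hg
  obtain ⟨c, hc⟩ := hL.log X fun m => ⟨g ^ m, by
    rw [ep_nsmul hπ (hX.trans_lt hrπ), hXg, map_pow]⟩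
  exact ⟨c, by rw [hc]; exact hX, by rw [hc]; exact hXg⟩

omit [CharZero k] [CompleteSpace k] in
theorem dist1 (φ : G →* Mt n k) {a b : G} (ha : ‖φ a⁻¹‖ ≤ 1) :
    ‖φ (a⁻¹ * b) - 1‖ ≤ ‖φ b - φ a‖ := by
  have h1 : φ a⁻¹ * φ a = 1 := by rw [← map_mul, inv_mul_cancel, map_one]
  have h2 : φ (a⁻¹ * b) - 1 = φ a⁻¹ * (φ b - φ a) := by rw [map_mul, mul_sub, h1]
  rw [h2]
  refine (norm_mul_le _ _).trans ?_
  calc _ ≤ 1 * ‖φ b - φ a‖ := mul_le_mul_of_nonneg_right ha (norm_nonneg _)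
    _ = _ := one_mul _

omit [CharZero k] [CompleteSpace k] in
theorem dist2 (φ : G →* Mt n k) {a b : G} (ha : ‖φ a‖ ≤ 1) :
    ‖φ b - φ a‖ ≤ ‖φ (a⁻¹ * b) - 1‖ := by
  have h2 : φ b - φ a = φ a * (φ (a⁻¹ * b) - 1) := by
    rw [mul_sub, ← map_mul, mul_one, mul_inv_cancel_left]
  rw [h2]
  refine (norm_mul_le _ _).trans ?_
  calc _ ≤ 1 * ‖φ (a⁻¹ * b) - 1‖ := mul_le_mul_of_nonneg_right ha (norm_nonneg _)
    _ = _ := one_mul _

/-- index of congruence subgroups of the conjugate group, measured in the original norm -/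
theorem LG.idx2 {φ : G →* Mt n k} {ι : (Fin d → k) →ₗ[k] Mt n k} (hL : LG φ ι)
    (hπ : Pi k π) (hr : 0 ≤ r) (hrπ : r < π) (hr1 : r < 1) (h : (Mt n k)ˣ) {s s' : ℝ} (hs : 0 ≤ s)
    (hsr : s ≤ r) (hc : (‖(h : Mt n k)‖ * ‖((h⁻¹ : (Mt n k)ˣ) : Mt n k)‖) * s ≤ r)
    (hs' : 0 ≤ s') (hfin : (Bg ι s').relIndex (Bg (cjι h ι) s) ≠ 0) :
    (Ag φ s').relIndex (Ag (cjφ h φ) s) ≤ (Bg ι s').relIndex (Bg (cjι h ι) s) ∧
      (Ag φ s').relIndex (Ag (cjφ h φ) s) ≠ 0 := by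
  classical
  have hs1 : s < 1 := hsr.trans_lt hr1
  have hex : ∀ g : G, g ∈ Ag (cjφ h φ) s → ∃ c, ‖cjι h ι c‖ ≤ s ∧ ep (cjι h ι c) = cjφ h φ g :=
    fun g hg => (hL.cj h).exists_log hπ (hsr.trans_lt hrπ) ((mem_Ag' hs hs1).1 hg)
  let f : G → (Fin d → k) := fun g => if hg : g ∈ Ag (cjφ h φ) s then (hex g hg).choose else 0
  have hf : ∀ g, g ∈ Ag (cjφ h φ) s → ‖cjι h ι (f g)‖ ≤ s ∧ ep (cjι h ι (f g)) = cjφ h φ g := by
    intro g hg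
    have h1 : f g = (hex g hg).choose := dif_pos hg
    rw [h1]; exact (hex g hg).choose_spec
  have hf1 : ∀ g, g ∈ Ag (cjφ h φ) s → ‖ι (f g)‖ ≤ r ∧ ep (ι (f g)) = φ g := by
    intro g hg
    obtain ⟨h1, h2⟩ := hf g hg
    refine ⟨(le_cjl h _).trans (le_trans (mul_le_mul_of_nonneg_left h1 (by positivity)) hc), ?_⟩
    apply (cjl h).injective
    rw [cjl_ep]; exact h2
  have hA : ∀ g, g ∈ Ag (cjφ h φ) s → g ∈ Ag φ r := by
    intro g hg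
    obtain ⟨h1, h2⟩ := hf1 g hg
    rw [mem_Ag' hr hr1, ← h2, ep_sub_one hπ _ (h1.trans_lt hrπ)]
    exact h1
  refine idx_le _ _ _ _ hfin f (fun g hg => (mem_Bg hs).2 (hf g hg).1) ?_
  intro a ha b hb hab
  rw [mem_Bg hs', map_sub, ← ep_iso hπ hr hrπ _ _ (hf1 b hb).1 (hf1 a ha).1, (hf1 b hb).2,
    (hf1 a ha).2] at hab
  have h1 := (mem_Ag hr).1 (hA a ha)
  have h2 := (mem_Ag hr).1 ((Ag φ r).mul_mem ((Ag φ r).inv_mem (hA a ha)) (hA b hb))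
  exact (mem_Ag hs').2 ⟨(dist1 φ h1.2.2).trans hab, h2.2.1, h2.2.2⟩

/-- index of congruence subgroups in the same norm -/
theorem LG.idx1 {φ : G →* Mt n k} {ι : (Fin d → k) →ₗ[k] Mt n k} (hL : LG φ ι)
    (hπ : Pi k π) (hr : 0 ≤ r) (hrπ : r < π) (hr1 : r < 1) {s : ℝ} (hs : 0 ≤ s)
    (hfin : (Bg ι s).relIndex (Bg ι r) ≠ 0) :
    (Ag φ s).relIndex (Ag φ r) ≤ (Bg ι s).relIndex (Bg ι r) ∧
      (Ag φ s).relIndex (Ag φ r) ≠ 0 := by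
  classical
  have hex : ∀ g : G, g ∈ Ag φ r → ∃ c, ‖ι c‖ ≤ r ∧ ep (ι c) = φ g :=
    fun g hg => hL.exists_log hπ hrπ ((mem_Ag' hr hr1).1 hg)
  let f : G → (Fin d → k) := fun g => if hg : g ∈ Ag φ r then (hex g hg).choose else 0
  have hf : ∀ g, g ∈ Ag φ r → ‖ι (f g)‖ ≤ r ∧ ep (ι (f g)) = φ g := by
    intro g hg
    have h1 : f g = (hex g hg).choose := dif_pos hg
    rw [h1]; exact (hex g hg).choose_spec
  refine idx_le _ _ _ _ hfin f (fun g hg => (mem_Bg hr).2 (hf g hg).1) ?_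
  intro a ha b hb hab
  rw [mem_Bg hs, map_sub, ← ep_iso hπ hr hrπ _ _ (hf b hb).1 (hf a ha).1, (hf b hb).2,
    (hf a ha).2] at hab
  have h1 := (mem_Ag hr).1 ha
  have h2 := (mem_Ag hr).1 ((Ag φ r).mul_mem ((Ag φ r).inv_mem ha) hb)
  exact (mem_Ag hs).2 ⟨(dist1 φ h1.2.2).trans hab, h2.2.1, h2.2.2⟩

/-- the converse estimate -/
theorem idx3 {φ : G →* Mt n k} {ι : (Fin d → k) →ₗ[k] Mt n k}
    (hπ : Pi k π) (hr : 0 ≤ r) (hrπ : r < π) (hr1 : r < 1)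
    (h2 : ∀ c, ‖ι c‖ ≤ r → ∃ g, φ g = ep (ι c)) {s : ℝ} (hs : 0 ≤ s)
    (hfin : (Ag φ s).relIndex (Ag φ r) ≠ 0) :
    (Bg ι s).relIndex (Bg ι r) ≤ (Ag φ s).relIndex (Ag φ r) := by
  classical
  let f : (Fin d → k) → G := fun c => if hc : ‖ι c‖ ≤ r then (h2 c hc).choose else 1
  have hf : ∀ c, ‖ι c‖ ≤ r → φ (f c) = ep (ι c) := by
    intro c hc
    have h1 : f c = (h2 c hc).choose := dif_pos hc
    rw [h1]; exact (h2 c hc).choose_spec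
  have hfA : ∀ c, ‖ι c‖ ≤ r → f c ∈ Ag φ r := by
    intro c hc
    rw [mem_Ag' hr hr1, hf c hc, ep_sub_one hπ _ (hc.trans_lt hrπ)]
    exact hc
  refine idx_ge _ _ _ _ hfin f (fun c hc => hfA c ((mem_Bg hr).1 hc)) ?_
  intro a ha b hb hab
  rw [mem_Bg hr] at ha hb
  rw [mem_Bg hs, map_sub, ← ep_iso hπ hr hrπ _ _ hb ha, ← hf a ha, ← hf b hb]
  exact (dist2 φ ((mem_Ag hr).1 (hfA a ha)).2.1).trans ((mem_Ag hs).1 hab).1

end Vale.Agent.P092.H736.Rp
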