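import Mathlib.MeasureTheory.Measure.Haar.MulEquivHaarChar
import Mathlib.MeasureTheory.Constructions.Pi
import Mathlib.MeasureTheory.Measure.Haar.Unique
import Mathlib.MeasureTheory.Measure.Haar.OfBasis
import Mathlib.MeasureTheory.Measure.Lebesgue.EqHaar
import Mathlib.LinearAlgebra.Matrix.Transvection
import Mathlib.LinearAlgebra.Matrix.GeneralLinearGroup.Defs
import Mathlib.Analysis.Normed.Field.Ultra
import Mathlib.Analysis.Normed.Ring.Ultra
import Mathlib.Analysis.Normed.Group.Ultra
import Mathlib.LinearAlgebra.Matrix.NonsingularInverse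

/-!
P092, project RP, block P9 (helper736): additive volumes over a local field of characteristic zero.
The volume of a compact set on which a fixed nondegenerate bilinear form is integral is bounded.
-/

set_option linter.all false

open Filter Topology MeasureTheory MeasureTheory.Measure Matrix
open scoped NNReal ENNReal

namespace Vale.Agent.P092.H736.Rp

variable {k : Type*} [NontriviallyNormedField k] [ProperSpace k] [MeasurableSpace k] [BorelSpace k]

/-- multiplication by a unit -/
def mt (t : kˣ) : k ≃ₜ+ k where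
  toFun x := (t : k) * x
  invFun x := ((t⁻¹ : kˣ) : k) * x
  left_inv x := by simp
  right_inv x := by simp
  map_add' x y := mul_add _ _ _
  continuous_toFun := continuous_const.mul continuous_id
  continuous_invFun := continuous_const.mul continuous_id

theorem mt_apply (t : kˣ) (x : k) : mt t x = (t : k) * x := rfl

/-- the module of a unit -/
noncomputable def md : kˣ →* ℝ≥0 where
  toFun t := addEquivAddHaarChar (mt t)
  map_one' := by
    have : mt (1 : kˣ) = ContinuousAddEquiv.refl k := by
      ext x; simp [mt_apply]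
    rw [this, addEquivAddHaarChar_refl]
  map_mul' s t := by
    have : mt (s * t) = (mt t).trans (mt s) := by
      ext x; simp [mt_apply, mul_assoc]
    rw [this, addEquivAddHaarChar_trans, mul_comm]

theorem md_smul (t : kˣ) (X : Set k) :
    (md t : ℝ≥0∞) * (addHaar : Measure k) ((fun x => (t : k) * x) ⁻¹' X) = addHaar X := by
  have h := addEquivAddHaarChar_smul_preimage (addHaar : Measure k) (X := X) (mt t)
  rw [ENNReal.smul_def, smul_eq_mul] at h
  exact h

theorem md_le_one {t : kˣ} (ht : ‖(t : k)‖ ≤ 1) : md t ≤ 1 := by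
  have h := md_smul t (Metric.closedBall (0 : k) 1)
  have h1 : (addHaar : Measure k) (Metric.closedBall (0 : k) 1) ≤
      (addHaar : Measure k) ((fun x => (t : k) * x) ⁻¹' (Metric.closedBall (0 : k) 1)) := by
    refine measure_mono fun x hx => ?_
    rw [Set.mem_preimage, mem_closedBall_zero_iff, norm_mul]
    rw [mem_closedBall_zero_iff] at hx
    exact mul_le_one₀ ht (norm_nonneg _) hx
  have h3 : (addHaar : Measure k) (Metric.closedBall (0 : k) 1) ≠ 0 :=
    (Metric.measure_closedBall_pos _ _ one_pos).ne'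
  have h4 : (addHaar : Measure k) (Metric.closedBall (0 : k) 1) ≠ ∞ :=
    (isCompact_closedBall _ _).measure_lt_top.ne
  have h5 : (md t : ℝ≥0∞) * addHaar (Metric.closedBall (0 : k) 1) ≤
      1 * addHaar (Metric.closedBall (0 : k) 1) := by
    rw [one_mul]
    calc _ ≤ _ := mul_le_mul_right h1 _
      _ = _ := h
  have h6 := (ENNReal.mul_le_mul_iff_left h3 h4).mp h5
  exact_mod_cast h6

section gl

variable {d : ℕ}

/-- the action of `GL_d` on `k^d` -/
def cl (A : GL (Fin d) k) : (Fin d → k) ≃ₜ+ (Fin d → k) where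
  toFun x := (A : Matrix (Fin d) (Fin d) k) *ᵥ x
  invFun x := ((A⁻¹ : GL (Fin d) k) : Matrix (Fin d) (Fin d) k) *ᵥ x
  left_inv x := by
    show _ *ᵥ (_ *ᵥ x) = x
    rw [Matrix.mulVec_mulVec, Units.inv_mul, Matrix.one_mulVec]
  right_inv x := by
    show _ *ᵥ (_ *ᵥ x) = x
    rw [Matrix.mulVec_mulVec, Units.mul_inv, Matrix.one_mulVec]
  map_add' x y := Matrix.mulVec_add _ _ _
  continuous_toFun := Continuous.matrix_mulVec continuous_const continuous_id
  continuous_invFun := Continuous.matrix_mulVec continuous_const continuous_id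

theorem cl_apply (A : GL (Fin d) k) (x : Fin d → k) :
    cl A x = (A : Matrix (Fin d) (Fin d) k) *ᵥ x := rfl

/-- the module of an invertible matrix -/
noncomputable def dl : GL (Fin d) k →* ℝ≥0 where
  toFun t := addEquivAddHaarChar (cl t)
  map_one' := by
    have : cl (1 : GL (Fin d) k) = ContinuousAddEquiv.refl _ := by
      ext x; simp [cl_apply]
    rw [this, addEquivAddHaarChar_refl]
  map_mul' s t := by
    have : cl (s * t) = (cl t).trans (cl s) := by
      ext1 x
      show (s * t : GL (Fin d) k).1 *ᵥ x = s.1 *ᵥ (t.1 *ᵥ x)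
      rw [Matrix.mulVec_mulVec]; rfl
    rw [this, addEquivAddHaarChar_trans, mul_comm]

theorem dl_smul (A : GL (Fin d) k) (μ : Measure (Fin d → k)) [IsAddHaarMeasure μ] [Regular μ]
    (X : Set (Fin d → k)) :
    (dl A : ℝ≥0∞) * μ ((fun x => (A : Matrix (Fin d) (Fin d) k) *ᵥ x) ⁻¹' X) = μ X := by
  have h := addEquivAddHaarChar_smul_preimage μ (X := X) (cl A)
  rw [ENNReal.smul_def, smul_eq_mul] at h
  exact h

/-- the unit box -/
def box (d : ℕ) (k : Type*) [NontriviallyNormedField k] : Set (Fin d → k) :=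
  Set.pi Set.univ fun _ => Metric.closedBall (0 : k) 1

theorem dl_diag (D : Fin d → kˣ) (A : GL (Fin d) k)
    (hA : (A : Matrix (Fin d) (Fin d) k) = Matrix.diagonal fun i => (D i : k)) :
    dl A = ∏ i, md (D i) := by
  have h := dl_smul A (Measure.pi fun _ : Fin d => (addHaar : Measure k)) (box d k)
  have h1 : (fun x => (A : Matrix (Fin d) (Fin d) k) *ᵥ x) ⁻¹' (box d k) =
      Set.pi Set.univ fun i => ((fun x => (D i : k) * x) ⁻¹' (Metric.closedBall (0 : k) 1)) := by
    ext x
    simp only [box, Set.mem_preimage, Set.mem_pi, Set.mem_univ, true_imp_iff]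
    rw [hA]
    refine forall_congr' fun i => ?_
    rw [Matrix.mulVec_diagonal]
  rw [h1, box, Measure.pi_pi, Measure.pi_pi] at h
  have h2 : ∀ i, (addHaar : Measure k) ((fun x => (D i : k) * x) ⁻¹'
      (Metric.closedBall (0 : k) 1)) * (md (D i) : ℝ≥0∞) =
      (addHaar : Measure k) (Metric.closedBall (0 : k) 1) := fun i => by
    rw [mul_comm]; exact md_smul (D i) _
  have h3 : ∏ i : Fin d, (addHaar : Measure k) (Metric.closedBall (0 : k) 1) =
      (∏ i, (addHaar : Measure k) ((fun x => (D i : k) * x) ⁻¹' (Metric.closedBall (0 : k) 1))) *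
        ∏ i, (md (D i) : ℝ≥0∞) := by
    rw [← Finset.prod_mul_distrib]
    exact Finset.prod_congr rfl fun i _ => (h2 i).symm
  rw [h3, mul_comm] at h
  have h4 : ∀ i, (addHaar : Measure k) ((fun x => (D i : k) * x) ⁻¹'
      (Metric.closedBall (0 : k) 1)) ≠ 0 := fun i h0 => by
    have := h2 i
    rw [h0, zero_mul] at this
    exact (Metric.measure_closedBall_pos (addHaar : Measure k) (0 : k) one_pos).ne this
  have h5 : ∀ i, (addHaar : Measure k) ((fun x => (D i : k) * x) ⁻¹'
      (Metric.closedBall (0 : k) 1)) ≠ ∞ := fun i h0 => by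
    have := h2 i
    have hp : (md (D i) : ℝ≥0∞) ≠ 0 := by
      have : md (D i) ≠ 0 := fun h0 => by
        have h1 : md (D i) * md (D i)⁻¹ = 1 := by rw [← map_mul, mul_inv_cancel, map_one]
        rw [h0, zero_mul] at h1
        exact zero_ne_one h1
      exact_mod_cast this
    rw [h0, ENNReal.top_mul hp] at this
    exact (isCompact_closedBall (0 : k) 1).measure_lt_top.ne this.symm
  have h6 := (ENNReal.mul_right_inj (Finset.prod_ne_zero_iff.2 fun i _ => h4 i)
    (ENNReal.prod_ne_top fun i _ => h5 i)).1 h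
  exact_mod_cast h6

theorem dl_ne (A : GL (Fin d) k) : dl A ≠ 0 := fun h0 => by
  have h1 : dl A * dl A⁻¹ = 1 := by rw [← map_mul, mul_inv_cancel, map_one]
  rw [h0, zero_mul] at h1
  exact zero_ne_one h1

theorem md_ne (A : kˣ) : md A ≠ 0 := fun h0 => by
  have h1 : md A * md A⁻¹ = 1 := by rw [← map_mul, mul_inv_cancel, map_one]
  rw [h0, zero_mul] at h1
  exact zero_ne_one h1

theorem dl_trans [CharZero k] (t : TransvectionStruct (Fin d) k) (A : GL (Fin d) k)
    (hA : (A : Matrix (Fin d) (Fin d) k) = t.toMatrix) : dl A = 1 := by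
  have h2 : ((diagonal fun i => if i = t.i then (2 : k) else 1).det) ≠ 0 := by
    rw [Matrix.det_diagonal]
    refine Finset.prod_ne_zero_iff.2 fun i _ => ?_
    split_ifs <;> norm_num
  set D : GL (Fin d) k := Matrix.GeneralLinearGroup.mkOfDetNeZero _ h2 with hD
  have hDv : (D : Matrix (Fin d) (Fin d) k) = diagonal fun i => if i = t.i then (2 : k) else 1 :=
    rfl
  have h3 : D * A = A * A * D := by
    apply Units.ext
    rw [Units.val_mul, Units.val_mul, Units.val_mul, hA, hDv]
    have h4 : t.toMatrix * t.toMatrix = transvection t.i t.j (t.c + t.c) := by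
      have : t.toMatrix = transvection t.i t.j t.c := rfl
      rw [this, Matrix.transvection_mul_transvection_same _ _ t.hij]
    rw [h4]
    have : t.toMatrix = transvection t.i t.j t.c := rfl
    rw [this]
    unfold Matrix.transvection
    rw [mul_add, add_mul, mul_one, one_mul]
    congr 1
    ext a b
    rw [Matrix.diagonal_mul, Matrix.mul_diagonal]
    by_cases ha : a = t.i
    · by_cases hb : b = t.i
      · have : ¬ (t.i = a ∧ t.j = b) := fun h => t.hij (hb.symm.trans h.2.symm)
        rw [Matrix.single_apply, Matrix.single_apply, if_neg this, if_neg this]; simp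
      · rw [if_pos ha, if_neg hb, Matrix.single_apply, Matrix.single_apply]
        split_ifs <;> ring
    · have : ¬ (t.i = a ∧ t.j = b) := fun h => ha h.1.symm
      rw [Matrix.single_apply, Matrix.single_apply, if_neg this, if_neg this]; simp
  have h5 := congrArg dl h3
  rw [map_mul, map_mul, map_mul] at h5
  have h6 : dl A * dl D = (dl A * dl A) * dl D := by rw [← h5, mul_comm]
  have h7 := mul_right_cancel₀ (dl_ne D) h6
  have h8 : dl A * 1 = dl A * dl A := by rw [mul_one]; exact h7
  exact (mul_left_cancel₀ (dl_ne A) h8).symm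

theorem dl_eq [CharZero k] (M : Matrix (Fin d) (Fin d) k) (hM : M.det ≠ 0) :
    ∀ A : GL (Fin d) k, (A : Matrix (Fin d) (Fin d) k) = M → dl A = md (Units.mk0 M.det hM) := by
  have key : ∀ hM : M.det ≠ 0, ∀ A : GL (Fin d) k, (A : Matrix (Fin d) (Fin d) k) = M →
      dl A = md (Units.mk0 M.det hM) := by
    refine Matrix.diagonal_transvection_induction_of_det_ne_zero
      (fun M => ∀ hM : M.det ≠ 0, ∀ A : GL (Fin d) k, (A : Matrix (Fin d) (Fin d) k) = M →
      dl A = md (Units.mk0 M.det hM)) M hM ?_ ?_ ?_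
    · intro D hD hD' A hA
      have h1 : ∀ i, D i ≠ 0 := by
        rw [Matrix.det_diagonal] at hD
        exact fun i => (Finset.prod_ne_zero_iff.1 hD) i (Finset.mem_univ i)
      rw [dl_diag (fun i => Units.mk0 (D i) (h1 i)) A (by rw [hA]; rfl), ← map_prod]
      congr 1
      apply Units.ext
      simp [Matrix.det_diagonal]
    · intro t ht A hA
      rw [dl_trans t A hA]
      have : Units.mk0 t.toMatrix.det ht = 1 := by
        apply Units.ext; simp
      rw [this, map_one]
    · intro A B hA hB ihA ihB hAB C hC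
      have h1 : C = Matrix.GeneralLinearGroup.mkOfDetNeZero A hA *
          Matrix.GeneralLinearGroup.mkOfDetNeZero B hB := by
        apply Units.ext; rw [hC]; rfl
      rw [h1, map_mul, ihA hA _ rfl, ihB hB _ rfl, ← map_mul]
      congr 1
      apply Units.ext
      simp [Matrix.det_mul]
  exact key hM

/-- **volumes of integral sets are bounded** -/
theorem vb [CharZero k] [IsUltrametricDist k] (S : Matrix (Fin d) (Fin d) k) (hS : S.det ≠ 0)
    (μ : Measure (Fin d → k)) [IsAddHaarMeasure μ] [Regular μ] :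
    ∃ C : ℝ≥0∞, C ≠ ∞ ∧ ∀ B : Set (Fin d → k), IsCompact B → B ∈ 𝓝 (0 : Fin d → k) →
      (∀ x ∈ B, ∀ y ∈ B, ‖x ⬝ᵥ S *ᵥ y‖ ≤ 1) → μ B ≤ C := by
  have hboxc : IsCompact (box d k) := isCompact_univ_pi fun _ => isCompact_closedBall _ _
  refine ⟨((1 + (md (Units.mk0 S.det hS))⁻¹ : ℝ≥0) : ℝ≥0∞) * μ (box d k),
    ENNReal.mul_ne_top ENNReal.coe_ne_top hboxc.measure_lt_top.ne, fun B hB hB0 hBS => ?_⟩
  have hT : IsCompact (Set.pi Set.univ fun _ : Fin d => B) := isCompact_univ_pi fun _ => hB
  obtain ⟨ε, hε, hball⟩ := Metric.mem_nhds_iff.1 hB0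
  obtain ⟨t, ht0, ht⟩ := NormedField.exists_norm_lt k hε
  have ht0' : t ≠ 0 := norm_pos_iff.1 ht0
  have hf1 : (fun j : Fin d => (Pi.single j t : Fin d → k)) ∈
      Set.pi Set.univ fun _ : Fin d => B := by
    intro j _
    apply hball
    rw [mem_ball_zero_iff, pi_norm_lt_iff hε]
    intro i
    by_cases h : i = j
    · subst h; simpa using ht
    · show ‖(Pi.single j t : Fin d → k) i‖ < ε
      rw [Pi.single_eq_of_ne h]; simpa using hε
  have hcont : Continuous fun f : Fin d → Fin d → k => ‖(Matrix.of f).det‖ :=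
    (Continuous.matrix_det (by exact continuous_id)).norm
  obtain ⟨f, hf, hmax⟩ := hT.exists_isMaxOn ⟨_, hf1⟩ hcont.continuousOn
  have hmax' : ∀ f' ∈ Set.pi Set.univ (fun _ : Fin d => B),
      ‖(Matrix.of f').det‖ ≤ ‖(Matrix.of f).det‖ := fun f' hf' => hmax hf'
  have hdet : (Matrix.of f).det ≠ 0 := by
    have h1 := hmax' _ hf1
    have h2 : (Matrix.of fun j : Fin d => (Pi.single j t : Fin d → k)).det = t ^ d := by
      have : (Matrix.of fun j : Fin d => (Pi.single j t : Fin d → k)) =
          Matrix.diagonal fun _ => t := by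
        ext a b
        rw [Matrix.of_apply, Matrix.diagonal_apply, Pi.single_apply]
        by_cases h : a = b
        · subst h; simp
        · simp [h, Ne.symm h]
      rw [this, Matrix.det_diagonal]
      simp
    rw [h2] at h1
    intro h0
    rw [h0, norm_zero] at h1
    exact pow_ne_zero d ht0' (norm_le_zero_iff.mp h1)
  set F := (Matrix.of f)ᵀ with hF
  have hFdet : F.det = (Matrix.of f).det := Matrix.det_transpose _
  have hFd : F.det ≠ 0 := by rw [hFdet]; exact hdet
  set A : GL (Fin d) k := Matrix.GeneralLinearGroup.mkOfDetNeZero F hFd with hA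
  have hAF : (A : Matrix (Fin d) (Fin d) k) = F := rfl
  have h1 := dl_smul A μ B
  have h2 : (fun x => (A : Matrix (Fin d) (Fin d) k) *ᵥ x) ⁻¹' B ⊆ box d k := by
    intro c hc i _
    rw [Set.mem_preimage, hAF] at hc
    have e1 : c i = (F⁻¹ *ᵥ (F *ᵥ c)) i := by
      rw [Matrix.mulVec_mulVec, Matrix.nonsing_inv_mul F (Ne.isUnit hFd), Matrix.one_mulVec]
    generalize F *ᵥ c = x at hc e1
    have e2 : (F⁻¹ *ᵥ x) i = (F.det)⁻¹ * (F.updateCol i x).det := by
      rw [Matrix.inv_def, Matrix.smul_mulVec, Pi.smul_apply, smul_eq_mul,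
        ← Matrix.cramer_eq_adjugate_mulVec, Matrix.cramer_apply, Ring.inverse_eq_inv']
    have e3 : ‖(F.updateCol i x).det‖ ≤ ‖F.det‖ := by
      have h3 : (F.updateCol i x).det = (Matrix.of (Function.update f i x)).det := by
        have : F.updateCol i x = (Matrix.of (Function.update f i x))ᵀ := by
          rw [hF, Matrix.updateCol_transpose]
          rfl
        rw [this, Matrix.det_transpose]
      rw [h3, hFdet]
      refine hmax' _ fun l _ => ?_
      by_cases h : l = i
      · subst h; rw [Function.update_self]; exact hc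
      · rw [Function.update_of_ne h]; exact hf l trivial
    rw [mem_closedBall_zero_iff, e1, e2, norm_mul, norm_inv]
    have h4 : 0 < ‖F.det‖ := norm_pos_iff.mpr hFd
    rw [inv_mul_le_iff₀ h4, mul_one]
    exact e3
  -- the determinant is bounded
  have h3 : ‖(Fᵀ * S * F).det‖ ≤ 1 := by
    have h4 : ∀ i j, ‖(Fᵀ * S * F) i j‖ ≤ 1 := by
      intro i j
      have h5 : (Fᵀ * S * F) i j = f i ⬝ᵥ S *ᵥ f j := by
        rw [Matrix.mul_assoc, Matrix.mul_apply]
        rfl
      rw [h5]
      exact hBS _ (hf i trivial) _ (hf j trivial)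
    rw [Matrix.det_apply]
    refine IsUltrametricDist.norm_sum_le_of_forall_le_of_nonneg zero_le_one fun σ _ => ?_
    have h6 : ‖∏ i, (Fᵀ * S * F) (σ i) i‖ ≤ 1 := by
      rw [norm_prod]
      exact Finset.prod_le_one (fun _ _ => norm_nonneg _) fun i _ => h4 _ _
    rcases Int.units_eq_one_or (Equiv.Perm.sign σ) with h | h
    · rw [h, one_smul]; exact h6
    · rw [h, Units.neg_smul, one_smul, norm_neg]; exact h6
  have h4 : md (Units.mk0 F.det hFd) * md (Units.mk0 F.det hFd) * md (Units.mk0 S.det hS) ≤ 1 := by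
    rw [← map_mul, ← map_mul]
    apply md_le_one
    have : ((Units.mk0 F.det hFd * Units.mk0 F.det hFd * Units.mk0 S.det hS : kˣ) : k) =
        (Fᵀ * S * F).det := by
      have h7 : (Fᵀ * S * F).det = F.det * S.det * F.det := by
        rw [Matrix.det_mul, Matrix.det_mul, Matrix.det_transpose]
      rw [h7, Units.val_mul, Units.val_mul, Units.val_mk0, Units.val_mk0]
      ring
    rw [this]; exact h3
  have h5 : dl A ≤ 1 + (md (Units.mk0 S.det hS))⁻¹ := by
    rw [dl_eq F hFd A hAF]
    set x := md (Units.mk0 F.det hFd)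
    set s := md (Units.mk0 S.det hS) with hs
    have hs0 : 0 < s := pos_iff_ne_zero.2 (md_ne _)
    rcases le_total x 1 with hx | hx
    · exact hx.trans (le_add_of_nonneg_right zero_le)
    · have h6 : x * x ≤ s⁻¹ := by
        rw [← one_div, le_div_iff₀ hs0]; exact h4
      calc x = x * 1 := (mul_one x).symm
        _ ≤ x * x := mul_le_mul_right hx x
        _ ≤ s⁻¹ := h6
        _ ≤ 1 + s⁻¹ := le_add_of_nonneg_left zero_le
  rw [← h1]
  exact mul_le_mul' (by exact_mod_cast h5) (measure_mono h2)

end gl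

end Vale.Agent.P092.H736.Rp
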