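import Vale.Agent.P092.H736.RpExp
import Vale.Agent.P092.H736.RpVol
import Mathlib.Topology.Algebra.Group.ClosedSubgroup
import Mathlib.Topology.Algebra.OpenSubgroup
import Mathlib.MeasureTheory.Group.Measure
import Mathlib.MeasureTheory.Group.ModularCharacter
import Mathlib.Analysis.Matrix.Normed

/-!
P092, project RP, block P9 (helper736): indices of congruence subgroups of a linear group and
indices of lattices in its Lie algebra.
-/

set_option linter.all false

open Filter Topology MeasureTheory MeasureTheory.Measure Matrix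
open scoped NNReal ENNReal

namespace Vale.Agent.P092.H736.Rp

section idx

variable {G D : Type*} [Group G] [AddCommGroup D]

theorem idx_le (S T : Subgroup G) (Y Z : AddSubgroup D) (hfin : Y.relIndex Z ≠ 0) (f : G → D)
    (hf : ∀ t ∈ T, f t ∈ Z) (hinj : ∀ a ∈ T, ∀ b ∈ T, f b - f a ∈ Y → a⁻¹ * b ∈ S) :
    S.relIndex T ≤ Y.relIndex Z ∧ S.relIndex T ≠ 0 := by
  haveI : Finite (Z ⧸ Y.addSubgroupOf Z) := (AddSubgroup.finiteIndex_iff_finite_quotient).1 ⟨hfin⟩
  have hi : Function.Injective (fun q : T ⧸ S.subgroupOf T =>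
      ((⟨f q.out.1, hf _ q.out.2⟩ : Z) : Z ⧸ Y.addSubgroupOf Z)) := ?_
  · refine ⟨Nat.card_le_card_of_injective _ hi, ?_⟩
    haveI : Finite (T ⧸ S.subgroupOf T) := Finite.of_injective _ hi
    exact Subgroup.index_ne_zero_of_finite
  intro q q' h
  rw [QuotientAddGroup.eq] at h
  have h1 : f q'.out.1 - f q.out.1 ∈ Y := by
    have h2 : -(f q.out.1) + f q'.out.1 ∈ Y := h
    rwa [neg_add_eq_sub] at h2
  have h3 := hinj _ q.out.2 _ q'.out.2 h1
  have h4 : (q.out : T ⧸ S.subgroupOf T) = (q'.out : T ⧸ S.subgroupOf T) := by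
    rw [QuotientGroup.eq]; exact h3
  rwa [QuotientGroup.out_eq', QuotientGroup.out_eq'] at h4

theorem idx_ge (S T : Subgroup G) (Y Z : AddSubgroup D) (hfin : S.relIndex T ≠ 0) (f : D → G)
    (hf : ∀ t ∈ Z, f t ∈ T) (hinj : ∀ a ∈ Z, ∀ b ∈ Z, (f a)⁻¹ * f b ∈ S → b - a ∈ Y) :
    Y.relIndex Z ≤ S.relIndex T := by
  haveI : Finite (T ⧸ S.subgroupOf T) := (Subgroup.finiteIndex_iff_finite_quotient).1 ⟨hfin⟩
  show Nat.card (Z ⧸ Y.addSubgroupOf Z) ≤ Nat.card (T ⧸ S.subgroupOf T)
  refine Nat.card_le_card_of_injective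
    (fun q => ((⟨f q.out.1, hf _ q.out.2⟩ : T) : T ⧸ S.subgroupOf T)) ?_
  intro q q' h
  rw [QuotientGroup.eq] at h
  have h3 : -q.out.1 + q'.out.1 ∈ Y := by
    rw [neg_add_eq_sub]; exact hinj _ q.out.2 _ q'.out.2 h
  have h4 : (q.out : Z ⧸ Y.addSubgroupOf Z) = (q'.out : Z ⧸ Y.addSubgroupOf Z) := by
    rw [QuotientAddGroup.eq]; exact h3
  rwa [QuotientAddGroup.out_eq', QuotientAddGroup.out_eq'] at h4

/-- a subgroup whose cosets are separated by a map to a finite set -/
theorem idx_fin {ι : Type*} [Finite ι] (S T : Subgroup G) (f : G → ι)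
    (hinj : ∀ a ∈ T, ∀ b ∈ T, f a = f b → a⁻¹ * b ∈ S) :
    S.relIndex T ≤ Nat.card ι ∧ S.relIndex T ≠ 0 := by
  have hi : Function.Injective (fun q : T ⧸ S.subgroupOf T => f q.out.1) := by
    intro q q' h
    have h3 := hinj _ q.out.2 _ q'.out.2 h
    have h4 : (q.out : T ⧸ S.subgroupOf T) = (q'.out : T ⧸ S.subgroupOf T) := by
      rw [QuotientGroup.eq]; exact h3
    rwa [QuotientGroup.out_eq', QuotientGroup.out_eq'] at h4
  refine ⟨Nat.card_le_card_of_injective _ hi, ?_⟩
  haveI : Finite (T ⧸ S.subgroupOf T) := Finite.of_injective _ hi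
  exact Subgroup.index_ne_zero_of_finite

end idx

section add

variable {V : Type*} [AddCommGroup V] [TopologicalSpace V] [IsTopologicalAddGroup V]

theorem add_ne_zero {U O : AddSubgroup V} (hU : IsOpen (U : Set V)) (hO : IsCompact (O : Set V)) :
    U.relIndex O ≠ 0 := by
  haveI : CompactSpace O := isCompact_iff_compactSpace.1 hO
  have h1 : IsOpen ((U.addSubgroupOf O : AddSubgroup O) : Set O) :=
    hU.preimage continuous_subtype_val
  haveI : Finite (O ⧸ U.addSubgroupOf O) := AddSubgroup.quotient_finite_of_isOpen _ h1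
  exact AddSubgroup.index_ne_zero_of_finite

variable [MeasurableSpace V] [BorelSpace V] {μ : Measure V} [μ.IsAddLeftInvariant]

theorem add_index {U O : AddSubgroup V} (hU : IsOpen (U : Set V)) (hO : IsOpen (O : Set V))
    (hc : IsCompact (O : Set V)) (hUO : U ≤ O) :
    μ (O : Set V) = (U.relIndex O : ℝ≥0∞) * μ (U : Set V) := by
  have hmo : MeasurableSet (O : Set V) := hO.measurableSet
  have hme : MeasurableEmbedding (O.subtype : O → V) := MeasurableEmbedding.subtype_coe hmo
  haveI : (μ.comap (O.subtype : O → V)).IsAddLeftInvariant := IsAddLeftInvariant.comap μ hme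
  haveI : (U.addSubgroupOf O).FiniteIndex := ⟨add_ne_zero hU hc⟩
  have h1 := (U.addSubgroupOf O).index_mul_measure
    (hU.preimage continuous_subtype_val).measurableSet (μ.comap (O.subtype : O → V))
  rw [hme.comap_apply, hme.comap_apply] at h1
  have h2 : (O.subtype : O → V) '' Set.univ = (O : Set V) := by
    rw [Set.image_univ]; exact Subtype.range_coe
  have h3 : (O.subtype : O → V) '' ((U.addSubgroupOf O : AddSubgroup O) : Set O) = (U : Set V) := by
    ext x
    constructor
    · rintro ⟨y, hy, rfl⟩; exact hy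
    · intro hx; exact ⟨⟨x, hUO hx⟩, hx, rfl⟩
  rw [h2, h3] at h1
  exact h1.symm

end add

end Vale.Agent.P092.H736.Rp
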