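import Vale.Agent.P092.H736.RpGrp

/-!
P092, project RP, block P9 (helper736): volumes of compact open subgroups are bounded.
-/

set_option linter.all false

open Filter Topology MeasureTheory MeasureTheory.Measure Matrix
open scoped NNReal ENNReal

namespace Vale.Agent.P092.H736.Rp

variable {k : Type*} [NontriviallyNormedField k] [IsUltrametricDist k] {n d : ℕ}
  {G : Type*} [Group G]

attribute [local instance] mnr mna mu mc mp

section lattice

variable [ProperSpace k]

/-- The unit ball of the norm `sup_{g ∈ O} ‖g y‖`. -/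
def lball (φ : G →* Mt n k) (O : Subgroup G) : Set (Fin n → k) :=
  {y | ∀ g ∈ O, ∀ i, ‖(φ g *ᵥ y) i‖ ≤ 1}

theorem isCompact_lball (φ : G →* Mt n k) (O : Subgroup G) : IsCompact (lball φ O) := by
  have hc : IsCompact (Set.pi Set.univ fun _ : Fin n => Metric.closedBall (0 : k) 1) :=
    isCompact_univ_pi fun _ => isCompact_closedBall _ _
  refine hc.of_isClosed_subset ?_ ?_
  · have : lball φ O = ⋂ g ∈ O, ⋂ i, {y : Fin n → k | ‖(φ g *ᵥ y) i‖ ≤ 1} := by
      ext y; simp [lball]
    rw [this]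
    refine isClosed_biInter fun g _ => isClosed_iInter fun i => isClosed_le ?_ continuous_const
    exact ((_root_.continuous_apply i).comp
      (Continuous.matrix_mulVec continuous_const continuous_id)).norm
  · intro y hy i _
    rw [Metric.mem_closedBall, dist_zero_right]
    have := hy 1 O.one_mem i
    rwa [map_one, Matrix.one_mulVec] at this

theorem lball_mul {φ : G →* Mt n k} {O : Subgroup G} {y : Fin n → k} (hy : y ∈ lball φ O) {g : G}
    (hg : g ∈ O) : φ g *ᵥ y ∈ lball φ O := by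
  intro h hh i
  rw [Matrix.mulVec_mulVec, ← map_mul]
  exact hy _ (O.mul_mem hh hg) i

/-- A bounded subgroup preserves a lattice. -/
theorem exists_lattice (φ : G →* Mt n k) (O : Subgroup G) {R : ℝ}
    (hR : ∀ g ∈ O, ‖φ g‖ ≤ R) : ∃ h : (Mt n k)ˣ, ∀ g ∈ O, ‖cjl h (φ g)‖ ≤ 1 := by
  set L := lball φ O with hL
  have hLc : IsCompact L := isCompact_lball φ O
  have hT : IsCompact (Set.pi Set.univ fun _ : Fin n => L) := isCompact_univ_pi fun _ => hLc
  have hR0 : 0 ≤ R := (norm_nonneg _).trans (hR 1 O.one_mem)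
  obtain ⟨t, ht0', ht⟩ := NormedField.exists_norm_lt k (r := 1 / (R + 1)) (by positivity)
  have ht0 : t ≠ 0 := norm_pos_iff.1 ht0'
  have htR : ‖t‖ * R ≤ 1 := by
    rw [lt_div_iff₀ (by positivity)] at ht
    nlinarith [norm_nonneg t]
  have hf1 : (fun j : Fin n => (Pi.single j t : Fin n → k)) ∈
      Set.pi Set.univ fun _ : Fin n => L := by
    intro j _ g hg i
    have : (φ g *ᵥ (Pi.single j t : Fin n → k)) i = φ g i j * t := by
      simp
    rw [this, norm_mul, mul_comm]
    exact (mul_le_mul_of_nonneg_left ((entry_le _ i j).trans (hR g hg)) (norm_nonneg t)).trans htR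
  have hcont : Continuous fun f : Fin n → Fin n → k => ‖(Matrix.of f).det‖ :=
    (Continuous.matrix_det (by exact continuous_id)).norm
  obtain ⟨f, hf, hmax⟩ := hT.exists_isMaxOn ⟨_, hf1⟩ hcont.continuousOn
  have hmax' : ∀ f' ∈ Set.pi Set.univ (fun _ : Fin n => L),
      ‖(Matrix.of f').det‖ ≤ ‖(Matrix.of f).det‖ := fun f' hf' => hmax hf'
  have hdet : (Matrix.of f).det ≠ 0 := by
    have h1 := hmax' _ hf1
    have h2 : (Matrix.of fun j : Fin n => (Pi.single j t : Fin n → k)).det = t ^ n := by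
      have : (Matrix.of fun j : Fin n => (Pi.single j t : Fin n → k)) =
          Matrix.diagonal fun _ => t := by
        ext a b
        rw [Matrix.of_apply, Matrix.diagonal_apply, Pi.single_apply]
        by_cases h : a = b
        · subst h; simp
        · simp [h, Ne.symm h]
      rw [this, Matrix.det_diagonal]
      simp
    rw [h2] at h1
    intro h0
    rw [h0, norm_zero] at h1
    exact pow_ne_zero n ht0 (norm_le_zero_iff.mp h1)
  set A := (Matrix.of f)ᵀ with hA
  have hAdet : A.det = (Matrix.of f).det := Matrix.det_transpose _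
  have hAd : A.det ≠ 0 := by rw [hAdet]; exact hdet
  set B : (Mt n k)ˣ := (Matrix.GeneralLinearGroup.mkOfDetNeZero A hAd)⁻¹ with hB
  have hB1 : ((B : (Mt n k)ˣ) : Mt n k) = A⁻¹ := by
    rw [hB, Matrix.coe_units_inv]; rfl
  have hB2 : ((B⁻¹ : (Mt n k)ˣ) : Mt n k) = A := by rw [hB, inv_inv]; rfl
  refine ⟨B, fun g hg => norm_le zero_le_one fun i j => ?_⟩
  rw [cjl_apply, hB1, hB2]
  have hb : φ g *ᵥ (f j) ∈ L := lball_mul (hf j trivial) hg
  have e1 : (A⁻¹ * φ g * A) i j = (A⁻¹ *ᵥ (φ g *ᵥ (f j))) i := by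
    rw [Matrix.mulVec_mulVec]
    rfl
  rw [e1]
  generalize φ g *ᵥ (f j) = b at hb
  have e2 : (A⁻¹ *ᵥ b) i = (A.det)⁻¹ * (A.updateCol i b).det := by
    rw [Matrix.inv_def, Matrix.smul_mulVec, Pi.smul_apply, smul_eq_mul,
      ← Matrix.cramer_eq_adjugate_mulVec, Matrix.cramer_apply, Ring.inverse_eq_inv']
  have e3 : ‖(A.updateCol i b).det‖ ≤ ‖A.det‖ := by
    have h3 : (A.updateCol i b).det = (Matrix.of (Function.update f i b)).det := by
      have : A.updateCol i b = (Matrix.of (Function.update f i b))ᵀ := by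
        rw [hA, Matrix.updateCol_transpose]
        rfl
      rw [this, Matrix.det_transpose]
    rw [h3, hAdet]
    refine hmax' _ fun l _ => ?_
    by_cases h : l = i
    · subst h; rw [Function.update_self]; exact hb
    · rw [Function.update_of_ne h]; exact hf l trivial
  rw [e2, norm_mul, norm_inv]
  have h4 : 0 < ‖A.det‖ := norm_pos_iff.mpr hAd
  rw [inv_mul_le_iff₀ h4, mul_one]
  exact e3

end lattice

section top

theorem Bg_nhds [CompleteSpace k] (ι : (Fin d → k) →ₗ[k] Mt n k) {s : ℝ} (hs : 0 < s) :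
    (Bg ι s : Set (Fin d → k)) ∈ 𝓝 (0 : Fin d → k) := by
  have hc : Continuous ι := LinearMap.continuous_of_finiteDimensional ι
  have h1 : Metric.closedBall (0 : Mt n k) s ∈ 𝓝 (ι 0) := by
    rw [map_zero]; exact Metric.closedBall_mem_nhds _ hs
  filter_upwards [hc.continuousAt.preimage_mem_nhds h1] with c hc
  exact (mem_Bg hs.le).2 (by simpa using hc)

theorem Bg_open [CompleteSpace k] (ι : (Fin d → k) →ₗ[k] Mt n k) {s : ℝ} (hs : 0 < s) :
    IsOpen (Bg ι s : Set (Fin d → k)) :=
  AddSubgroup.isOpen_of_mem_nhds _ (Bg_nhds ι hs)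

theorem Bg_compact [ProperSpace k] {ι : (Fin d → k) →ₗ[k] Mt n k} (hι : Function.Injective ι)
    {s : ℝ} (hs : 0 ≤ s) : IsCompact (Bg ι s : Set (Fin d → k)) := by
  have h1 : Topology.IsClosedEmbedding ι :=
    LinearMap.isClosedEmbedding_of_injective (LinearMap.ker_eq_bot.2 hι)
  have h2 := h1.isCompact_preimage (isCompact_closedBall (0 : Mt n k) s)
  convert h2 using 1
  ext c
  rw [Set.mem_preimage, mem_closedBall_zero_iff]
  exact mem_Bg hs

variable [TopologicalSpace G] [IsTopologicalGroup G]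

theorem Ag_open {φ : G →* Mt n k} (hφ : Continuous φ) {s : ℝ} (hs : 0 < s) :
    IsOpen (Ag φ s : Set G) := by
  refine Subgroup.isOpen_of_mem_nhds _ (g := 1) ?_
  have h0 : 0 < min s (1 / 2) := by positivity
  have h1 : Metric.closedBall (1 : Mt n k) (min s (1 / 2)) ∈ 𝓝 (φ 1) := by
    rw [map_one]; exact Metric.closedBall_mem_nhds _ h0
  filter_upwards [hφ.continuousAt.preimage_mem_nhds h1] with g hg
  rw [Set.mem_preimage, Metric.mem_closedBall, dist_eq_norm] at hg
  have h2 : g ∈ Ag φ (min s (1 / 2)) :=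
    (mem_Ag' h0.le ((min_le_right _ _).trans_lt (by norm_num))).2 hg
  exact Ag_mono h0.le (min_le_left _ _) h2

/-- small congruence subgroups are in a given open subgroup -/
theorem exists_Ag_le {φ : G →* Mt n k} (hφ : IsInducing φ) (h : (Mt n k)ˣ) {U : Subgroup G}
    (hU : IsOpen (U : Set G)) :
    ∃ ε > 0, ∀ s, 0 < s → s ≤ ε → Ag (cjφ h φ) s ≤ U := by
  have h1 : (U : Set G) ∈ 𝓝 (1 : G) := hU.mem_nhds U.one_mem
  rw [hφ.nhds_eq_comap, map_one] at h1
  obtain ⟨V, hV, hVU⟩ := h1
  obtain ⟨ε, hε, hball⟩ := Metric.mem_nhds_iff.1 hV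
  set C := ‖(h : Mt n k)‖ * ‖((h⁻¹ : (Mt n k)ˣ) : Mt n k)‖ with hC
  have hC0 : 0 ≤ C := by positivity
  refine ⟨ε / (2 * (C + 1)), by positivity, fun s hs hsε g hg => ?_⟩
  apply hVU
  apply hball
  rw [mem_ball_iff_norm]
  have h2 := ((mem_Ag hs.le).1 hg).1
  rw [cjφ_apply, ← cjl_one h, ← map_sub] at h2
  refine (le_cjl h _).trans_lt ?_
  calc C * ‖cjl h (φ g - 1)‖ ≤ C * (ε / (2 * (C + 1))) :=
        mul_le_mul_of_nonneg_left (h2.trans hsε) hC0
    _ < ε := by
      rw [mul_div_assoc', div_lt_iff₀ (by positivity)]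
      nlinarith

end top

end Vale.Agent.P092.H736.Rp
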