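import Vale.Agent.P092.H736.RpIdx
import Mathlib.Topology.MetricSpace.Ultra.Pi

/-!
P092, project RP, block P9 (helper736): matrices over an ultrametric field with the sup norm, small
subgroups and their logarithms.
-/

set_option linter.all false

open Filter Topology MeasureTheory MeasureTheory.Measure Matrix
open scoped NNReal ENNReal

namespace Vale.Agent.P092.H736.Rp

section mat

variable {k : Type*} [NontriviallyNormedField k] [IsUltrametricDist k] {n : ℕ}

/-- square matrices -/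
abbrev Mt (n : ℕ) (k : Type*) := Matrix (Fin n) (Fin n) k

/-- the sup norm -/
@[reducible] noncomputable def mng : NormedAddCommGroup (Mt n k) := Matrix.normedAddCommGroup

attribute [local instance] mng

theorem entry_le (A : Mt n k) (i j : Fin n) : ‖A i j‖ ≤ ‖A‖ := Matrix.norm_entry_le_entrywise_sup_norm A

theorem norm_le {A : Mt n k} {r : ℝ} (hr : 0 ≤ r) (h : ∀ i j, ‖A i j‖ ≤ r) : ‖A‖ ≤ r :=
  (Matrix.norm_le_iff hr).2 h

theorem norm_mul_le' (A B : Mt n k) : ‖A * B‖ ≤ ‖A‖ * ‖B‖ := by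
  refine norm_le (mul_nonneg (norm_nonneg _) (norm_nonneg _)) fun i j => ?_
  rw [Matrix.mul_apply]
  refine IsUltrametricDist.norm_sum_le_of_forall_le_of_nonneg
    (mul_nonneg (norm_nonneg _) (norm_nonneg _)) fun l _ => ?_
  rw [norm_mul]
  exact mul_le_mul (entry_le A i l) (entry_le B l j) (norm_nonneg _) (norm_nonneg _)

/-- matrices with the sup norm as a normed ring -/
@[reducible] noncomputable def mnr : NormedRing (Mt n k) where
  toNorm := mng.toNorm
  toRing := Matrix.instRing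
  toMetricSpace := mng.toMetricSpace
  dist_eq := mng.dist_eq
  norm_mul_le := norm_mul_le'

attribute [-instance] mng
attribute [local instance] mnr

/-- matrices with the sup norm as a normed algebra -/
@[reducible] noncomputable def mna : NormedAlgebra k (Mt n k) where
    toAlgebra := Matrix.instAlgebra
    norm_smul_le := fun a A => by
      refine norm_le (mul_nonneg (norm_nonneg _) (norm_nonneg _)) fun i j => ?_
      rw [Matrix.smul_apply, norm_smul]
      exact mul_le_mul_of_nonneg_left (entry_le A i j) (norm_nonneg _)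

attribute [local instance] mna

theorem mu : IsUltrametricDist (Mt n k) :=
  inferInstanceAs (IsUltrametricDist (Fin n → Fin n → k))

theorem mc [CompleteSpace k] : CompleteSpace (Mt n k) :=
  inferInstanceAs (CompleteSpace (Fin n → Fin n → k))

theorem mp [ProperSpace k] : ProperSpace (Mt n k) :=
  inferInstanceAs (ProperSpace (Fin n → Fin n → k))

attribute [local instance] mu mc mp

theorem one_le : ‖(1 : Mt n k)‖ ≤ 1 := by
  refine norm_le zero_le_one fun i j => ?_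
  rw [Matrix.one_apply]
  split_ifs <;> simp

/-- conjugation -/
noncomputable def cjl (h : (Mt n k)ˣ) : Mt n k ≃L[k] Mt n k where
  toFun X := h * X * (h⁻¹ : (Mt n k)ˣ)
  invFun X := (h⁻¹ : (Mt n k)ˣ) * X * h
  left_inv X := by
    show (h⁻¹ : (Mt n k)ˣ) * ((h : Mt n k) * X * (h⁻¹ : (Mt n k)ˣ)) * h = X
    rw [mul_assoc (h : Mt n k), Units.inv_mul_cancel_left, mul_assoc, Units.inv_mul, mul_one]
  right_inv X := by
    show (h : Mt n k) * ((h⁻¹ : (Mt n k)ˣ) * X * h) * (h⁻¹ : (Mt n k)ˣ) = X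
    rw [mul_assoc ((h⁻¹ : (Mt n k)ˣ) : Mt n k), Units.mul_inv_cancel_left, mul_assoc,
      Units.mul_inv, mul_one]
  map_add' X Y := by rw [mul_add, add_mul]
  map_smul' a X := by simp
  continuous_toFun := (continuous_const.mul continuous_id).mul continuous_const
  continuous_invFun := (continuous_const.mul continuous_id).mul continuous_const

theorem cjl_apply (h : (Mt n k)ˣ) (X : Mt n k) :
    cjl h X = h * X * ((h⁻¹ : (Mt n k)ˣ) : Mt n k) := rfl

theorem cjl_mul (h : (Mt n k)ˣ) (X Y : Mt n k) : cjl h (X * Y) = cjl h X * cjl h Y := by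
  rw [cjl_apply, cjl_apply, cjl_apply]
  calc _ = (h : Mt n k) * X * 1 * Y * ((h⁻¹ : (Mt n k)ˣ) : Mt n k) := by
        rw [mul_one]; simp only [mul_assoc]
    _ = _ := by rw [← Units.inv_mul h]; simp only [mul_assoc]

theorem cjl_one (h : (Mt n k)ˣ) : cjl h (1 : Mt n k) = 1 := by
  rw [cjl_apply, mul_one, Units.mul_inv]

theorem cjl_pow (h : (Mt n k)ˣ) (X : Mt n k) (m : ℕ) : cjl h (X ^ m) = (cjl h X) ^ m := by
  induction m with
  | zero => rw [pow_zero, pow_zero, cjl_one]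
  | succ m ih => rw [pow_succ, cjl_mul, ih, pow_succ]

/-- the exponential of a matrix -/
noncomputable def ep (X : Mt n k) : Mt n k := NormedSpace.exp X

theorem ep_def [CharZero k] (X : Mt n k) : ep X = ∑' m : ℕ, (((m.factorial : ℕ) : k))⁻¹ • X ^ m :=
  exp_def (k := k) X

theorem ep_iso [CharZero k] [CompleteSpace k] {π r : ℝ} (hπ : Pi k π) (hr : 0 ≤ r) (hrπ : r < π)
    (X Y : Mt n k) (hX : ‖X‖ ≤ r) (hY : ‖Y‖ ≤ r) : ‖ep X - ep Y‖ = ‖X - Y‖ :=
  exp_iso hπ hr hrπ X Y hX hY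

theorem ep_close [CharZero k] [CompleteSpace k] {π r : ℝ} (hπ : Pi k π) (hr : 0 ≤ r) (hrπ : r < π)
    (X Y : Mt n k) (hX : ‖X‖ ≤ r) (hY : ‖Y‖ ≤ r) :
    ‖ep X - ep Y - (X - Y)‖ ≤ (r / π) * ‖X - Y‖ :=
  exp_close hπ hr hrπ X Y hX hY

theorem ep_zero [CharZero k] : ep (0 : Mt n k) = 1 := exp_zero' (k := k)

theorem ep_sub_one [CharZero k] [CompleteSpace k] {π : ℝ} (hπ : Pi k π) (X : Mt n k)
    (hX : ‖X‖ < π) : ‖ep X - 1‖ = ‖X‖ := exp_sub_one hπ X hX

theorem ep_surj [CharZero k] [CompleteSpace k] {π r : ℝ} (hπ : Pi k π) (hrπ : r < π) (g : Mt n k)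
    (hg : ‖g - 1‖ ≤ r) : ∃ X : Mt n k, ‖X‖ ≤ r ∧ ep X = g := exp_surj hπ hrπ g hg

theorem ep_nsmul [CharZero k] [CompleteSpace k] {π : ℝ} (hπ : Pi k π) {X : Mt n k} (hX : ‖X‖ < π)
    (m : ℕ) : ep ((m : k) • X) = ep X ^ m := exp_nsmul hπ hX m

theorem cjl_ep [CharZero k] (h : (Mt n k)ˣ) (X : Mt n k) :
    cjl h (ep X) = ep (cjl h X) := by
  rw [ep_def, ep_def, (cjl h).map_tsum]
  congr 1
  ext1 m
  rw [map_smul, cjl_pow]

theorem cjl_le (h : (Mt n k)ˣ) (X : Mt n k) :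
    ‖cjl h X‖ ≤ (‖(h : Mt n k)‖ * ‖((h⁻¹ : (Mt n k)ˣ) : Mt n k)‖) * ‖X‖ := by
  rw [cjl_apply]
  refine (norm_mul_le _ _).trans ?_
  calc _ ≤ (‖(h : Mt n k)‖ * ‖X‖) * ‖((h⁻¹ : (Mt n k)ˣ) : Mt n k)‖ :=
        mul_le_mul_of_nonneg_right (norm_mul_le _ _) (norm_nonneg _)
    _ = _ := by ring

theorem le_cjl (h : (Mt n k)ˣ) (X : Mt n k) :
    ‖X‖ ≤ (‖(h : Mt n k)‖ * ‖((h⁻¹ : (Mt n k)ˣ) : Mt n k)‖) * ‖cjl h X‖ := by
  have h1 : X = (h⁻¹ : (Mt n k)ˣ) * cjl h X * h := by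
    rw [cjl_apply, mul_assoc (h : Mt n k), Units.inv_mul_cancel_left, mul_assoc, Units.inv_mul,
      mul_one]
  nth_rewrite 1 [h1]
  refine (norm_mul_le _ _).trans ?_
  calc _ ≤ (‖((h⁻¹ : (Mt n k)ˣ) : Mt n k)‖ * ‖cjl h X‖) * ‖(h : Mt n k)‖ :=
        mul_le_mul_of_nonneg_right (norm_mul_le _ _) (norm_nonneg _)
    _ = _ := by ring

theorem cjl_trace (h : (Mt n k)ˣ) (X : Mt n k) : (cjl h X).trace = X.trace := by
  rw [cjl_apply, Matrix.trace_mul_comm, ← mul_assoc, Units.inv_mul, one_mul]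

theorem norm_trace_le (X : Mt n k) : ‖X.trace‖ ≤ ‖X‖ := by
  unfold Matrix.trace
  exact IsUltrametricDist.norm_sum_le_of_forall_le_of_nonneg (norm_nonneg _) fun i _ =>
    entry_le X i i

end mat

end Vale.Agent.P092.H736.Rp
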